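import Crest.Agent.N325.Tw.Defs
import Crest.Agent.N325.Lst.ListR

-- ▼ part N325/Tw/Bot0
section

/-! Row 325 (helper16): walks with named heads, for the Bellman–Ford search at the bottom. -/

set_option autoImplicit false

namespace Crest.Agent.N325.Tw.Bot

/-- an arc together with its head -/
abbrev En := ℕ × ℕ × Bool

def hd (ed : ℕ → Ed) (a : ℕ × Bool) : ℕ := if a.2 then (ed a.1).b else (ed a.1).a
def tl (ed : ℕ → Ed) (a : ℕ × Bool) : ℕ := if a.2 then (ed a.1).a else (ed a.1).b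
/-- cost of an arc -/
def ca (ψ : ℕ) (ed : ℕ → Ed) (a : ℕ × Bool) : ℤ := sg a.2 * (ed a.1).g + (ψ * (ed a.1).l : ℕ)
/-- cost of a list of arcs -/
def cw (ψ : ℕ) (ed : ℕ → Ed) (w : List En) : ℤ := (w.map fun x => ca ψ ed x.2).sum

/-- a walk ending at `v`, last arc first -/
def Wlk (G : Gr) : ℕ → List En → Prop
  | _, [] => True
  | v, x :: r => x.1 = v ∧ x.2.1 ∈ G.E ∧ hd G.ed x.2 = v ∧ Wlk G (tl G.ed x.2) r

variable {G : Gr} {ψ : ℕ}

@[simp] theorem cw_nil (ed : ℕ → Ed) : cw ψ ed [] = 0 := rfl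
@[simp] theorem cw_cons (ed : ℕ → Ed) (x : En) (w : List En) :
    cw ψ ed (x :: w) = ca ψ ed x.2 + cw ψ ed w := by simp [cw]
@[simp] theorem cw_append (ed : ℕ → Ed) (w w' : List En) :
    cw ψ ed (w ++ w') = cw ψ ed w + cw ψ ed w' := by simp [cw]

theorem Wlk.mem {v : ℕ} {w : List En} (h : Wlk G v w) :
    ∀ x ∈ w, x.2.1 ∈ G.E ∧ x.1 = hd G.ed x.2 := by
  induction w generalizing v with
  | nil => simp
  | cons y r ih =>
    intro x hx
    rcases List.mem_cons.1 hx with rfl | hx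
    · exact ⟨h.2.1, h.1.trans h.2.2.1.symm⟩
    · exact ih h.2.2.2 x hx

theorem Wlk.split {v : ℕ} {w : List En} {x : En} {r : List En} (h : Wlk G v (w ++ x :: r)) :
    Wlk G x.1 (x :: r) ∧ (∀ r', Wlk G x.1 r' → Wlk G v (w ++ r')) ∧
      Tel G.ed (w.map Prod.snd) x.1 v := by
  induction w generalizing v with
  | nil =>
    obtain rfl : x.1 = v := h.1
    exact ⟨h, fun _ k => k, fun z => by simp [wsum]⟩
  | cons y w ih =>
    obtain ⟨h1, h2, h3, h4⟩ := h
    obtain ⟨a, b, c⟩ := ih h4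
    refine ⟨a, fun r' k => ⟨h1, h2, h3, b r' k⟩, fun z => ?_⟩
    have := c z
    simp only [wsum, List.map_cons, List.sum_cons] at this ⊢
    rw [this, ← h3]
    unfold hd tl dz sg
    cases y.2.2 <;> simp

theorem cw_eq (ed : ℕ → Ed) (w : List En) :
    cw ψ ed w = wg ed (w.map Prod.snd) + (ψ * wl ed (w.map Prod.snd) : ℕ) := by
  induction w with
  | nil => simp [wg, wsum, wl]
  | cons x w ih =>
    rw [cw_cons, ih]
    simp only [ca, wg, wsum, wl, List.map_cons, List.sum_cons]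
    push_cast; ring

theorem abs_cw_le {c : Bd} (hG : G.Ok c) {w : List En} (h : ∀ x ∈ w, x.2.1 ∈ G.E) :
    (cw ψ G.ed w).natAbs ≤ w.length * (c.gb + ψ * c.lb) := by
  induction w with
  | nil => simp
  | cons x w ih =>
    have h1 := ih fun y hy => h y (by simp [hy])
    obtain ⟨-, -, -, -, h2, h3⟩ := hG.2.2 _ (h x (by simp))
    have h4 := Nat.mul_le_mul_left ψ h2
    have h5 : (sg x.2.2 * (G.ed x.2.1).g).natAbs = (G.ed x.2.1).g.natAbs := by
      unfold sg; cases x.2.2 <;> simp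
    rw [cw_cons, List.length_cons, add_mul, ca]
    omega

/-- `D` is below the cost of all walks with at most `i` arcs -/
def Opt (ψ : ℕ) (G : Gr) (i : ℕ) (D : ℕ → ℤ) : Prop :=
  ∀ v w, Wlk G v w → w.length ≤ i → D v ≤ cw ψ G.ed w

theorem Opt.zero : Opt ψ G 0 fun _ => 0 := by
  intro v w _ h
  rw [List.length_eq_zero_iff.1 (Nat.le_zero.1 h)]; simp

theorem Opt.succ {i : ℕ} {D D' : ℕ → ℤ} (h : Opt ψ G i D) (h1 : ∀ v, D' v ≤ D v)
    (h2 : ∀ a : ℕ × Bool, a.1 ∈ G.E → D' (hd G.ed a) ≤ D (tl G.ed a) + ca ψ G.ed a) :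
    Opt ψ G (i + 1) D' := by
  intro v w hw hl
  cases w with
  | nil => exact (h1 v).trans (h v [] trivial (Nat.zero_le _))
  | cons x r =>
    obtain ⟨-, a, b, c⟩ := hw
    have := h _ r c (by simpa using hl)
    have := h2 x.2 a
    rw [cw_cons, ← b]; omega

theorem Cyc.perm {K : ℕ} {w w' : Wk} (h : Cyc ψ K G w) (p : w.Perm w') : Cyc ψ K G w' := by
  obtain ⟨h1, h2, h3, h4⟩ := h
  have e : ∀ f, wsum f w' = wsum f w := fun f => ((p.map _).sum_eq).symm
  refine ⟨fun x hx => h1 x (p.mem_iff.2 hx), p.length_eq ▸ h2, fun z => (e _).trans (h3 z), ?_⟩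
  rw [wg, e, wl, ← (p.map _).sum_eq]; exact h4

/-- a repeated head on a walk that beats all shorter walks encloses a negative cycle -/
theorem cyc_of_rep {i v : ℕ} {D : ℕ → ℤ} (hD : Opt ψ G i D) {w1 r1 r2 : List En} {x y : En}
    (hw : Wlk G v (w1 ++ x :: (r1 ++ y :: r2))) (hxy : y.1 = x.1)
    (hl : (w1 ++ x :: (r1 ++ y :: r2)).length ≤ i + 1)
    (hc : cw ψ G.ed (w1 ++ x :: (r1 ++ y :: r2)) < D v) :
    Cyc ψ (i + 1) G (x.2 :: r1.map Prod.snd) := by
  obtain ⟨a, b, -⟩ := hw.split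
  have a' : Wlk G x.1 ((x :: r1) ++ y :: r2) := a
  obtain ⟨c, -, d⟩ := a'.split
  have h1 := hD v _ (b (y :: r2) (hxy ▸ c)) (by simp at hl ⊢; omega)
  have h2 : cw ψ G.ed (x :: r1) < 0 := by simp at hc h1 ⊢; omega
  rw [cw_eq] at h2
  refine ⟨fun z hz => ?_, by simp at hl ⊢; omega, fun z => ?_, ?_⟩
  · obtain ⟨u, hu, rfl⟩ := List.mem_map.1 (show z ∈ (x :: r1).map Prod.snd from hz)
    exact (a'.mem u (List.mem_append_left _ hu)).1
  · have := d z
    rw [hxy] at this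
    simpa using this
  · rw [List.map_cons] at h2; omega

/-- no violated arc: flat -/
theorem flat_of {D : ℕ → ℤ}
    (h : ∀ a : ℕ × Bool, a.1 ∈ G.E → D (hd G.ed a) ≤ D (tl G.ed a) + ca ψ G.ed a) : Flat G ψ := by
  refine ⟨fun v => D v, fun e he => ?_⟩
  have h1 := h (e, true) he
  have h2 := h (e, false) he
  simp only [hd, tl, ca, sg, if_true, Bool.false_eq_true, if_false] at h1 h2
  have h3 : |(G.ed e).g - (D (G.ed e).b - D (G.ed e).a)| ≤ ((ψ * (G.ed e).l : ℕ) : ℤ) :=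
    abs_le.2 ⟨by omega, by omega⟩
  have h4 : ((|(G.ed e).g - (D (G.ed e).b - D (G.ed e).a)| : ℤ) : ℝ) ≤ (((ψ * (G.ed e).l : ℕ) : ℤ) : ℝ) :=
    Int.cast_le.2 h3
  push_cast at h4
  exact h4

/-- a walk with distinct heads is short -/
theorem length_le_of_nodup {l : List (ℕ × Ed)} (hl : Enum G l) {v : ℕ} {w : List En}
    (hw : Wlk G v w) (hn : (w.map Prod.fst).Nodup) : w.length ≤ 2 * l.length := by
  have : w.map Prod.fst ⊆ l.map (fun x => x.2.a) ++ l.map fun x => x.2.b := by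
    intro u hu
    obtain ⟨x, hx, rfl⟩ := List.mem_map.1 hu
    obtain ⟨h1, h2⟩ := hw.mem x hx
    obtain ⟨y, hy, e⟩ := List.mem_map.1 ((hl.2.1 _).1 h1)
    have e2 := hl.2.2 y hy
    rw [h2, hd, ← e, e2, List.mem_append]
    split_ifs
    · exact Or.inr (List.mem_map.2 ⟨y, hy, rfl⟩)
    · exact Or.inl (List.mem_map.2 ⟨y, hy, rfl⟩)
  have := (hn.subperm this).length_le
  simp only [List.length_map, List.length_append] at this
  omega

theorem length_le_of_enum {c : Bd} (hG : G.Ok c) {l : List (ℕ × Ed)} (hl : Enum G l) :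
    l.length ≤ c.m := by
  have : (l.map Prod.fst).toFinset = G.E := by ext e; rw [List.mem_toFinset, hl.2.1]
  rw [← List.length_map Prod.fst, ← List.toFinset_card_of_nodup hl.1, this]
  exact (Finset.card_le_card hG.1).trans hG.2.1

end Crest.Agent.N325.Tw.Bot
end

-- ▼ part N325/Tw/Bot

/-! Row 325 (helper16): the Bellman–Ford search at the bottom of the tower. -/

set_option autoImplicit false

namespace Crest.Agent.N325.Tw.Bot

/-- distance labels with their walks -/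
abbrev Tab := Arr (ℤ × List En)

/-- relax the arc `x` from `u` to `v` of cost `c`: read `D`, write `D'` -/
def relax (D : Tab) (u v : ℕ) (x : ℕ × Bool) (c : ℤ) (D' : Tab) : R Tab := do
  let y ← int ((D.get u).1 + c)
  pure (if y < (D'.get v).1 then D'.set v (y, (v, x) :: (D.get u).2) else D')

/-- relax both arcs of an edge -/
def relax2 (ψ : ℕ) (D : Tab) (p : ℕ × Ed) (D' : Tab) : R Tab := do
  let q ← nat (ψ * p.2.l)
  let c1 ← int (p.2.g + (q : ℤ))
  let c2 ← int ((q : ℤ) - p.2.g)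
  let D1 ← relax D p.2.a p.2.b (p.1, true) c1 D'
  relax D p.2.b p.2.a (p.1, false) c2 D1

/-- one round -/
def round (ψ : ℕ) (l : List (ℕ × Ed)) (D : Tab) : R Tab := foldL (relax2 ψ D) l D

/-- a vertex whose label has dropped gives its walk -/
def seek (l : List (ℕ × Ed)) (D D' : Tab) : R (List En) :=
  foldP (fun p s => if (D'.get p.2.a).1 < (D.get p.2.a).1 then (D'.get p.2.a).2
    else if (D'.get p.2.b).1 < (D.get p.2.b).1 then (D'.get p.2.b).2 else s) l []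

/-- the arcs before the first entry with head `y` -/
def upTo (y : ℕ) (r : List En) (a : Wk) : R (Bool × Wk) :=
  foldP (fun x s => if s.1 then s else if x.1 = y then (true, s.2) else (false, x.2 :: s.2)) r
    (false, a)

/-- the part of the list between two entries with the same head -/
def rep (w : List En) : R (Option Wk) := do
  let s ← foldL (fun x (s : List En × Option Wk) => do
    let u ← upTo x.1 s.1 [x.2]
    pure (s.1.tail, if u.1 then some u.2 else s.2)) w (w.tail, none)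
  pure s.2

/-- **the search** -/
def bot (ψ : ℕ) (l : List (ℕ × Ed)) : R (Option Wk) := do
  let m ← lenL l
  let n ← nat (2 * m)
  let D ← forN (fun _ D => round ψ l D) n 0 (Arr.cst (0, []))
  let D' ← round ψ l D
  let w ← seek l D D'
  rep w

variable {g : Gl} {G : Gr} {ψ : ℕ} {c : Bd} {l : List (ℕ × Ed)}

/-- the table holds walks with at most `i` arcs and their costs -/
def Real (ψ : ℕ) (G : Gr) (i : ℕ) (D : Tab) : Prop :=
  ∀ v, Wlk G v (D.get v).2 ∧ (D.get v).2.length ≤ i ∧ cw ψ G.ed (D.get v).2 = (D.get v).1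

theorem sp_relax (hG : G.Ok c) {i : ℕ} (hX : (i + 1) * (c.gb + ψ * c.lb) ≤ g.X) {D D' : Tab}
    (hD : Real ψ G i D) (hD' : Real ψ G (i + 1) D') {x : ℕ × Bool} (hx : x.1 ∈ G.E) :
    Sp g (relax D (tl G.ed x) (hd G.ed x) x (ca ψ G.ed x) D') fun r t =>
      Real ψ G (i + 1) r ∧ (∀ v, (r.get v).1 ≤ (D'.get v).1) ∧
      (r.get (hd G.ed x)).1 ≤ (D.get (tl G.ed x)).1 + ca ψ G.ed x ∧ t = 0 := by
  obtain ⟨a1, a2, a3⟩ := hD (tl G.ed x)
  have hw : Wlk G (hd G.ed x) ((hd G.ed x, x) :: (D.get (tl G.ed x)).2) := ⟨rfl, hx, rfl, a1⟩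
  have hc : cw ψ G.ed ((hd G.ed x, x) :: (D.get (tl G.ed x)).2) =
      (D.get (tl G.ed x)).1 + ca ψ G.ed x := by rw [cw_cons, a3, add_comm]
  unfold relax
  rw [sp_bind, sp_int]
  refine ⟨?_, ?_⟩
  · rw [← hc]
    refine (abs_cw_le hG fun y hy => (hw.mem y hy).1).trans (le_trans ?_ hX)
    exact Nat.mul_le_mul_right _ (by simpa using a2)
  · rw [sp_pure]
    split_ifs with h
    · refine ⟨fun v => ?_, fun v => ?_, by simp, rfl⟩
      · rw [Arr.get_set]; split_ifs with e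
        · subst e; exact ⟨hw, by simpa using a2, hc⟩
        · exact hD' v
      · rw [Arr.get_set]; split_ifs with e
        · subst e; exact h.le
        · exact le_rfl
    · exact ⟨hD', fun _ => le_rfl, not_lt.1 h, rfl⟩

theorem sp_round (hG : G.Ok c) (hl : Enum G l) {i : ℕ} (hX : (i + 1) * (c.gb + ψ * c.lb) ≤ g.X)
    {D : Tab} (hD : Real ψ G i D) :
    Sp g (round ψ l D) fun r t => Real ψ G (i + 1) r ∧ (∀ v, (r.get v).1 ≤ (D.get v).1) ∧
      (∀ x : ℕ × Bool, x.1 ∈ G.E → (r.get (hd G.ed x)).1 ≤ (D.get (tl G.ed x)).1 + ca ψ G.ed x) ∧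
      t ≤ l.length + 1 := by
  unfold round
  refine (sp_foldL' (fun rest (r : Tab) => (∀ p ∈ rest, p ∈ l) ∧ Real ψ G (i + 1) r ∧
    (∀ v, (r.get v).1 ≤ (D.get v).1) ∧ ∀ x : ℕ × Bool, x.1 ∈ G.E → x.1 ∉ rest.map Prod.fst →
      (r.get (hd G.ed x)).1 ≤ (D.get (tl G.ed x)).1 + ca ψ G.ed x) (fun _ => 0) ?_
    ⟨fun _ h => h, fun v => ⟨(hD v).1, (hD v).2.1.trans (Nat.le_succ _), (hD v).2.2⟩,
      fun _ => le_rfl, fun x h1 h2 => absurd ((hl.2.1 _).1 h1) h2⟩).mono ?_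
  · rintro ⟨e, d⟩ rest r ⟨a1, a2, a3, a4⟩
    have hp := a1 _ List.mem_cons_self
    obtain rfl : G.ed e = d := hl.2.2 _ hp
    have he : e ∈ G.E := (hl.2.1 _).2 (List.mem_map.2 ⟨_, hp, rfl⟩)
    obtain ⟨-, -, -, -, b1, b2⟩ := hG.2.2 e he
    have b3 := Nat.mul_le_mul_left ψ b1
    have b4 : c.gb + ψ * c.lb ≤ g.X := (Nat.le_mul_of_pos_left _ (by omega)).trans hX
    unfold relax2
    simp only [sp_bind, sp_nat, sp_int]
    refine ⟨by omega, by omega, by omega, ?_⟩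
    have e1 : (G.ed e).g + ((ψ * (G.ed e).l : ℕ) : ℤ) = ca ψ G.ed (e, true) := by simp [ca, sg]
    have e2 : ((ψ * (G.ed e).l : ℕ) : ℤ) - (G.ed e).g = ca ψ G.ed (e, false) := by
      simp [ca, sg]; ring
    rw [e1, e2]
    refine (sp_relax hG hX hD a2 (x := (e, true)) he).mono ?_
    rintro r1 _ ⟨c1, c2, c3, rfl⟩
    refine (sp_relax hG hX hD c1 (x := (e, false)) he).mono ?_
    rintro r2 _ ⟨d1, d2, d3, rfl⟩
    refine ⟨⟨fun p hp => a1 p (List.mem_cons_of_mem _ hp), d1,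
      fun v => (d2 v).trans ((c2 v).trans (a3 v)), fun x h1 h2 => ?_⟩, le_rfl⟩
    by_cases hx : x.1 = e
    · obtain ⟨e', b⟩ := x
      obtain rfl : e' = e := hx
      cases b
      · exact d3
      · exact (d2 _).trans c3
    · exact (d2 _).trans ((c2 _).trans (a4 x h1 (by simpa [hx] using h2)))
  · rintro r t ⟨⟨-, a2, a3, a4⟩, ht⟩
    exact ⟨a2, a3, fun x h => a4 x h (by simp), by simpa using ht⟩

theorem sp_seek (D D' : Tab) : Sp g (seek l D D') fun w t => t = l.length + 1 ∧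
    ((∃ v, (D'.get v).1 < (D.get v).1 ∧ w = (D'.get v).2) ∨ (w = [] ∧ ∀ p ∈ l,
      (D.get p.2.a).1 ≤ (D'.get p.2.a).1 ∧ (D.get p.2.b).1 ≤ (D'.get p.2.b).1)) := by
  refine (sp_foldP _ _ _).mono ?_
  rintro _ _ ⟨rfl, rfl⟩
  refine ⟨rfl, ?_⟩
  induction l using List.reverseRecOn with
  | nil => exact Or.inr ⟨rfl, by simp⟩
  | append_singleton l p ih =>
    rw [List.foldl_append, List.foldl_cons, List.foldl_nil]
    split_ifs with h1 h2
    · exact Or.inl ⟨_, h1, rfl⟩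
    · exact Or.inl ⟨_, h2, rfl⟩
    · refine ih.imp_right fun k => ⟨k.1, fun q hq => ?_⟩
      rcases List.mem_append.1 hq with hq | hq
      · exact k.2 q hq
      · rw [List.mem_singleton.1 hq]; exact ⟨not_lt.1 h1, not_lt.1 h2⟩

theorem sp_upTo (y : ℕ) (r : List En) (a : Wk) : Sp g (upTo y r a) fun s t => t = r.length + 1 ∧
    if s.1 then ∃ r1 x r2, r = r1 ++ x :: r2 ∧ x.1 = y ∧ s.2 = (r1.map Prod.snd).reverse ++ a
    else y ∉ r.map Prod.fst ∧ s.2 = (r.map Prod.snd).reverse ++ a := by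
  refine (sp_foldP _ _ _).mono ?_
  rintro _ _ ⟨rfl, rfl⟩
  refine ⟨rfl, ?_⟩
  induction r using List.reverseRecOn with
  | nil => simp
  | append_singleton r x ih =>
    rw [List.foldl_append, List.foldl_cons, List.foldl_nil]
    generalize List.foldl _ (false, a) r = s at ih ⊢
    obtain ⟨b, s⟩ := s
    cases b
    · simp only [Bool.false_eq_true, if_false] at ih ⊢
      by_cases h : x.1 = y
      · rw [if_pos h, if_pos rfl]
        exact ⟨r, x, [], rfl, h, ih.2⟩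
      · rw [if_neg h, if_neg (by simp)]
        exact ⟨by simpa [Ne.symm h] using ih.1, by simp [ih.2]⟩
    · simp only [if_true] at ih ⊢
      obtain ⟨r1, z, r2, rfl, h1, h2⟩ := ih
      exact ⟨r1, z, r2 ++ [x], by simp, h1, h2⟩

theorem sp_rep (w : List En) : Sp g (rep w) fun o t => t ≤ w.length * (w.length + 2) + 1 ∧
    (o = none → (w.map Prod.fst).Nodup) ∧ ∀ u ∈ o, ∃ w1 x r1 y r2,
      w = w1 ++ x :: (r1 ++ y :: r2) ∧ y.1 = x.1 ∧ (x.2 :: r1.map Prod.snd).Perm u := by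
  unfold rep
  refine Sp.bind (sp_foldL' (fun rest (s : List En × Option Wk) => s.1 = rest.tail ∧
    (∃ w0, w = w0 ++ rest) ∧
    (s.2 = none → (rest.map Prod.fst).Nodup → (w.map Prod.fst).Nodup) ∧ ∀ u ∈ s.2,
      ∃ w1 x r1 y r2, w = w1 ++ x :: (r1 ++ y :: r2) ∧ y.1 = x.1 ∧
        (x.2 :: r1.map Prod.snd).Perm u) (fun _ => w.length + 1) ?_
    ⟨rfl, ⟨[], rfl⟩, fun _ h => h, by simp⟩) ?_
  · rintro x rest ⟨r', o⟩ ⟨a1, ⟨w0, a2⟩, a3, a4⟩
    have a1' : rest = r' := a1.symm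
    subst a1'
    refine (sp_upTo _ _ _).bind ?_
    rintro ⟨b, u⟩ _ ⟨rfl, h⟩
    have hl : rest.length ≤ w.length := by rw [a2]; simp; omega
    refine ⟨⟨rfl, ⟨w0 ++ [x], by simp [a2]⟩, ?_⟩, by simpa using hl⟩
    cases b
    · simp only [Bool.false_eq_true, if_false, List.tail_cons] at h ⊢
      exact ⟨fun k hn => a3 k (List.nodup_cons.2 ⟨h.1, hn⟩), a4⟩
    · simp only [if_true, List.tail_cons] at h ⊢
      obtain ⟨r1, y, r2, e1, e2, e3⟩ := h
      refine ⟨fun k => by simp at k, fun u' hu => ⟨w0, x, r1, y, r2, by rw [a2, e1], e2, ?_⟩⟩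
      obtain rfl : u = u' := by simpa using hu
      rw [e3]
      exact (List.perm_append_singleton _ _).symm.trans
        ((List.reverse_perm _).symm.append_right _)
  · rintro s t ⟨⟨-, -, a3, a4⟩, ht⟩
    exact ⟨by simpa using ht, fun k => a3 k (by simp), a4⟩

/-- **the bottom search meets its specification** -/
theorem botSpec (hX : (2 * c.m + 1) * (c.gb + ψ * c.lb) ≤ g.X) (hm : 2 * c.m ≤ g.X) :
    BotSpec g (bot ψ) c ψ (2 * c.m + 1) (8 * (c.m + 1) ^ 2) := by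
  intro G l hG hl
  have hlen := length_le_of_enum hG hl
  have hX' : ∀ i ≤ 2 * l.length, (i + 1) * (c.gb + ψ * c.lb) ≤ g.X := fun i hi =>
    (Nat.mul_le_mul_right _ (by omega)).trans hX
  unfold bot
  refine (sp_lenL l).bind ?_
  rintro _ _ ⟨rfl, rfl⟩
  rw [sp_bind, sp_nat]
  refine ⟨by omega, ?_⟩
  refine Sp.bind (sp_forN' (fun i (D : Tab) => Real ψ G i D ∧ Opt ψ G i fun v => (D.get v).1)
    (l.length + 1) ?_ ⟨fun v => ⟨trivial, le_rfl, rfl⟩, Opt.zero⟩) ?_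
  · rintro i D - hi ⟨a1, a2⟩
    exact (sp_round hG hl (hX' i (by omega)) a1).mono fun r t k =>
      ⟨⟨k.1, a2.succ k.2.1 k.2.2.1⟩, k.2.2.2⟩
  rintro D t1 ⟨⟨a1, a2⟩, h1⟩
  rw [zero_add] at a1 a2
  refine (sp_round hG hl (hX' _ le_rfl) a1).bind ?_
  rintro D' t2 ⟨b1, b2, b3, h2⟩
  refine (sp_seek D D').bind ?_
  rintro w _ ⟨rfl, hw⟩
  refine (sp_rep w).mono ?_
  rintro o t3 ⟨h3, c1, c2⟩
  have hwl : w.length ≤ 2 * l.length + 1 := by
    rcases hw with ⟨v, -, rfl⟩ | ⟨rfl, -⟩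
    · exact (b1 v).2.1
    · simp
  refine ⟨?_, fun u hu => ?_, fun ho => ?_⟩
  · have : w.length * (w.length + 2) ≤ (2 * l.length + 1) * (2 * l.length + 1 + 2) := by gcongr
    have : (l.length + 1) ^ 2 ≤ (c.m + 1) ^ 2 := by gcongr
    nlinarith
  · obtain ⟨w1, x, r1, y, r2, e, e1, e2⟩ := c2 u hu
    rcases hw with ⟨v, hv, e3⟩ | ⟨e3, -⟩
    · obtain ⟨d1, d2, d3⟩ := b1 v
      rw [← e3, e] at d1 d2 d3
      obtain ⟨k1, k2, k3⟩ := Cyc.perm (cyc_of_rep a2 d1 e1 d2 (by rw [d3]; exact hv)) e2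
      exact ⟨k1, k2.trans (by omega), k3⟩
    · rw [e3] at e; simp at e
  · rcases hw with ⟨v, hv, rfl⟩ | ⟨-, hw⟩
    · obtain ⟨d1, -, d3⟩ := b1 v
      have : (D.get v).1 ≤ _ := a2 v _ d1 (length_le_of_nodup hl d1 (c1 ho))
      omega
    · refine flat_of (D := fun v => (D.get v).1) fun a ha => le_trans ?_ (b3 a ha)
      obtain ⟨p, hp, e⟩ := List.mem_map.1 ((hl.2.1 _).1 ha)
      rw [hd, ← e, hl.2.2 p hp]
      split_ifs
      · exact (hw p hp).2
      · exact (hw p hp).1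

end Crest.Agent.N325.Tw.Bot
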