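import Crest.Agent.N325.Tw.Fit

-- ▼ part N325/Tw/Ops
section

/-! # Row 325 (helper64): commands sent to the lower levels -/

set_option autoImplicit false
open Finset

namespace Crest.Agent.N325.Tw

variable {S P T : Type} {g : Gl} {θ κ : ℕ} {low : Cmd × T → R (T × Rep × Bool)}

theorem Oks.mono {K : ℕ} {c' : Bd} {G B : Gr} (hE : G.E ⊆ B.E) (he : B.ed = G.ed) {H : Gr}
    {l : List Ow} (h : Oks K c' G H l) : Oks K c' B H l := by
  induction l generalizing H with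
  | nil => trivial
  | cons o l ih =>
    exact ⟨h.1, fun x hx => ⟨(h.2.1 x hx).1, (h.2.1 x hx).2.mono hE fun e _ => by rw [he]⟩, ih h.2.2⟩

theorem setWk_get (o : Ow) (wk : Arr Wk) : (setWk o wk).get = o.wk wk.get := by
  obtain ⟨p, _ | x⟩ := o
  · rfl
  · exact Arr.set_get _ _ _

theorem Gr.Ok.app {c : Bd} {H : Gr} (h : H.Ok c) {o : Ow} (hm : H.U.card + 1 ≤ c.m)
    (hx : ∀ x ∈ o.2, c.ed o.1 x.1) : (H.app o.op).Ok c := by
  obtain ⟨p, _ | x⟩ := o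
  · exact ⟨(erase_subset _ _).trans h.1, h.2.1, fun e he => h.2.2 e (mem_of_mem_erase he)⟩
  · refine ⟨insert_subset_insert _ h.1, (card_insert_le _ _).trans hm, fun e he => ?_⟩
    change c.ed e (Function.update H.ed p x.1 e)
    by_cases e1 : e = p
    · rw [e1, Function.update_self]; exact hx x rfl
    · rw [Function.update_of_ne e1]; exact h.2.2 e ((mem_insert.1 he).resolve_left e1)

theorem Gr.emp_ok (c : Bd) : Gr.emp.Ok c :=
  ⟨subset_rfl, Nat.zero_le _, fun _ he => absurd he (notMem_empty _)⟩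

/-- the data shared by the proofs about one level -/
structure Ctx (g : Gl) (θ rp : ℕ) (k' : TC) (wt cc K : ℕ) (B : Gr) (ed : Arr Ed) : Prop where
  ed : ed.get = B.ed
  sub : B.E ⊆ B.U
  one : ∀ e ∈ B.E, 1 ≤ (B.ed e).l
  rp1 : θ + k'.rp ≤ rp
  rpX : rp ≤ g.X
  wt : wt + cc ≤ k'.wt
  cc : K + 2 ≤ k'.cc

variable {rp wt cc K : ℕ} {k' : TC} {B : Gr} {ed : Arr Ed}

theorem sp_down (C : Ctx g θ rp k' wt cc K B ed) {F : Finset ℕ} {ed' : ℕ → Ed} {wk : Arr Wk}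
    (hF : ∀ p ∈ F, WOk K B (ed' p).l (wk.get p)) {c : Cmd} {t : T} {s : So} (hs : PS θ rp B s)
    {Q : T × Rep × Bool → Prop} {Y : T → ℕ} {A : ℕ}
    (h : Sp g (low (c, t)) fun r u => Q r ∧ RepOk F k'.rp r.2.1 ∧
      θ * u + Y r.1 + θ * k'.cc * r.2.1.length + k'.wt * rw ed' r.2.1 ≤ A) :
    Sp g (down low θ ed wk c t s) fun d u => ∃ r, Q (d.2.1, r, d.2.2) ∧ PS θ rp B d.1 ∧
      (∀ e, val d.1 e = val s e + pf F wk.get (rsum r) e) ∧
      θ * u + Y d.2.1 + pm θ wt cc B d.1 ≤ A + pm θ wt cc B s + θ * 2 := by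
  unfold down
  rw [sp_bind, sp_call]
  refine h.mono ?_
  rintro r u ⟨a1, a2, a3⟩
  refine (sp_pushR (wt := wt) (cc := cc) C.ed C.sub C.one C.rp1 C.rpX hF a2 hs).bind ?_
  rintro s' u' ⟨b0, b1, b2, b3⟩
  refine ⟨r.2.1, a1, b1, b2, ?_⟩
  have e1 : (wt + cc) * rw ed' r.2.1 ≤ k'.wt * rw ed' r.2.1 := Nat.mul_le_mul_right _ C.wt
  have e2 : θ * u' ≤ θ * k'.cc * r.2.1.length + θ := by
    calc θ * u' ≤ θ * (r.2.1.length * k'.cc + 1) :=
          Nat.mul_le_mul_left _ (b0.trans (Nat.add_le_add_right (Nat.mul_le_mul_left _ C.cc) _))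
      _ = _ := by ring
  have e3 : θ * (1 + u + (u' + 0)) = θ + θ * u + θ * u' := by ring
  change θ * (1 + u + (u' + 0)) + Y r.1 + pm θ wt cc B s' ≤ _
  omega

variable {Sh' : T → Prop} {I' : T → Gr → (ℕ → ℤ) → Prop} {Ψ' : T → ℕ}

/-- invariant while the next graph is being changed -/
structure WI (θ rp K : ℕ) (c' : Bd) (I' : T → Gr → (ℕ → ℤ) → Prop) (B : Gr) (s : So × Arr Wk × T)
    (H : Gr) (fl : ℕ → ℤ) : Prop where
  low : I' s.2.2 H fl
  ps : PS θ rp B s.1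
  wok : ∀ p ∈ H.E, WOk K B (H.ed p).l (s.2.1.get p)
  ok : H.Ok c'

/-- all the flow that `e` has received -/
def tot (s : So × Arr Wk × T) (H : Gr) (fl : ℕ → ℤ) (e : ℕ) : ℤ :=
  val s.1 e + pf H.E s.2.1.get fl e

theorem pf_upd {H : Gr} {o : Ow} (ho : H.ok o.op) (wk : ℕ → Wk) {f f' : ℕ → ℤ} {r : Rep}
    (h : ∀ p ∈ insert o.1 H.E, (if p ∈ (H.app o.op).E then f' p else 0) + rsum r p =
      if p ∈ H.E then f p else 0) (e : ℕ) :
    pf (insert o.1 H.E) (o.wk wk) (rsum r) e + pf (H.app o.op).E (o.wk wk) f' e = pf H.E wk f e := by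
  have e1 : pf (H.app o.op).E (o.wk wk) f' e =
      ∑ p ∈ insert o.1 H.E, (if p ∈ (H.app o.op).E then f' p else 0) * scnt (o.wk wk p) e := by
    simp only [ite_mul, zero_mul]
    rw [← sum_filter, filter_mem_eq_inter, inter_eq_right.2 (show _ ⊆ insert o.1 H.E from H.app_E_sub o.op)]; rfl
  have e2 : pf H.E wk f e =
      ∑ p ∈ insert o.1 H.E, (if p ∈ H.E then f p else 0) * scnt (o.wk wk p) e := by
    simp only [ite_mul, zero_mul]
    rw [← sum_filter, filter_mem_eq_inter, inter_eq_right.2 (subset_insert _ _)]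
    refine sum_congr rfl fun p hp => ?_
    obtain ⟨q, _ | x⟩ := o
    · rfl
    · have : p ≠ q := fun e1 => ho (by rw [← show p = q from e1]; exact hp)
      simp only [Ow.wk, Function.update_of_ne this]
  rw [e1, e2, pf, ← sum_add_distrib]
  exact sum_congr rfl fun p hp => by rw [← h p hp]; ring

theorem sp_opR (L : TowerSpec g θ κ low k' Sh' I' Ψ') (C : Ctx g θ rp k' wt cc K B ed)
    {s : So × Arr Wk × T} {H : Gr} {fl : ℕ → ℤ} (h : WI θ rp K k'.c I' B s H fl) {o : Ow}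
    (ho : H.ok o.op) (hx : ∀ x ∈ o.2, k'.c.ed o.1 x.1 ∧ WOk K B x.1.l x.2)
    (hm : H.U.card + 1 ≤ k'.c.m) :
    Sp g (opR low θ ed o s) fun s' u => ∃ fl', WI θ rp K k'.c I' B s' (H.app o.op) fl' ∧
      s'.2.1.get = o.wk s.2.1.get ∧ (∀ e, tot s' (H.app o.op) fl' e = tot s H fl e) ∧
      θ * u + Ψ' s'.2.2 + pm θ wt cc B s'.1 ≤ Ψ' s.2.2 + pm θ wt cc B s.1 + θ * (k'.AU + 2) := by
  have hok := h.ok.app hm fun x hx' => (hx x hx').1
  have hF : ∀ p ∈ insert o.1 H.E, WOk K B ((H.app o.op).ed p).l ((setWk o s.2.1).get p) := by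
    intro p hp
    obtain ⟨q, _ | x⟩ := o
    · exact h.wok p (by rwa [insert_eq_of_mem (show q ∈ H.E from ho)] at hp)
    · change WOk K B (Function.update H.ed q x.1 p).l ((s.2.1.set q x.2).get p)
      by_cases e1 : p = q
      · rw [e1, Function.update_self, Arr.get_set_self]; exact (hx x rfl).2
      · rw [Function.update_of_ne e1, Arr.get_set_ne _ e1]
        exact h.wok p ((mem_insert.1 hp).resolve_left e1)
  unfold opR
  refine (sp_down C hF h.ps (Y := Ψ') (A := Ψ' s.2.2 + θ * k'.AU)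
    (Q := fun r => ∃ f', I' r.1 (H.app o.op) f' ∧ ∀ p ∈ insert o.1 H.E,
      (if p ∈ (H.app o.op).E then f' p else 0) + rsum r.2.1 p = if p ∈ H.E then fl p else 0)
    ((L.upd o.op h.low ho h.ok hok).mono fun r u ⟨f', a1, a2, a3, a4⟩ =>
      ⟨⟨f', a1, a3⟩, a2, a4⟩)).bind ?_
  rintro d u ⟨r, ⟨f', a1, a2⟩, b1, b2, b3⟩
  refine ⟨f', ⟨a1, b1, fun p hp => hF p (H.app_E_sub _ hp), hok⟩, setWk_get _ _, fun e => ?_, ?_⟩
  · change val d.1 e + pf _ (setWk o s.2.1).get f' e = _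
    rw [b2 e, setWk_get, add_assoc, pf_upd ho _ a2]; rfl
  · change θ * (u + 0) + Ψ' d.2.1 + pm θ wt cc B d.1 ≤ _
    rw [add_zero, mul_add]; omega

theorem sp_ops (L : TowerSpec g θ κ low k' Sh' I' Ψ') (C : Ctx g θ rp k' wt cc K B ed)
    {s : So × Arr Wk × T} {H : Gr} {fl : ℕ → ℤ} (h : WI θ rp K k'.c I' B s H fl) {l : List Ow}
    (hl : Oks K k'.c B H l) (hm : H.U.card + l.length ≤ k'.c.m) :
    Sp g (foldL (opR low θ ed) l s) fun s' u => ∃ fl', WI θ rp K k'.c I' B s' (apps H l) fl' ∧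
      s'.2.1.get = wks s.2.1.get l ∧ (apps H l).U.card ≤ H.U.card + l.length ∧
      (∀ e, tot s' (apps H l) fl' e = tot s H fl e) ∧
      θ * u + Ψ' s'.2.2 + pm θ wt cc B s'.1 ≤
        Ψ' s.2.2 + pm θ wt cc B s.1 + θ * (l.length * (k'.AU + 3) + 1) := by
  refine (sp_foldL (fun r s' t => ∃ H' fl', WI θ rp K k'.c I' B s' H' fl' ∧ Oks K k'.c B H' r ∧
      apps H' r = apps H l ∧ wks s'.2.1.get r = wks s.2.1.get l ∧
      H'.U.card + r.length ≤ H.U.card + l.length ∧ (∀ e, tot s' H' fl' e = tot s H fl e) ∧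
      θ * t + Ψ' s'.2.2 + pm θ wt cc B s'.1 + θ * (r.length * (k'.AU + 3)) ≤
        Ψ' s.2.2 + pm θ wt cc B s.1 + θ * (l.length * (k'.AU + 3))) ?_ (t := 0)
      ⟨H, fl, h, hl, rfl, rfl, le_rfl, fun _ => rfl, by simp⟩).mono ?_
  · rintro o r s1 t ⟨H1, f1, a1, a2, a3, a4, a5, a6, a7⟩
    rw [List.length_cons] at a5 a7
    refine (sp_opR L C a1 a2.1 a2.2.1 (by omega)).mono ?_
    rintro s2 u ⟨f2, b1, b2, b3, b4⟩
    have := H1.app_U_card o.op
    refine ⟨_, f2, b1, a2.2.2, a3, by rw [b2]; exact a4, by omega, fun e => (b3 e).trans (a6 e), ?_⟩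
    have e1 : θ * ((r.length + 1) * (k'.AU + 3)) =
        θ * (r.length * (k'.AU + 3)) + θ * (k'.AU + 2) + θ := by ring
    have e2 : θ * (t + 1 + u) = θ * t + θ + θ * u := by ring
    omega
  · rintro s' t ⟨u, rfl, H', fl', a1, -, a3, a4, a5, a6, a7⟩
    obtain rfl : H' = apps H l := a3
    refine ⟨fl', a1, a4, by simpa using a5, a6, ?_⟩
    simp only [List.length_nil, zero_mul, mul_zero, add_zero, zero_add] at a7
    rw [mul_add θ u 1, mul_add θ (l.length * _) 1]; omega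

end Crest.Agent.N325.Tw
end

-- ▼ part N325/Tw/Old
section

/-! # Row 325 (helper64): rebuilding a level -/

set_option autoImplicit false
open Finset

namespace Crest.Agent.N325.Tw

variable {S P T : Type} {g : Gl} {θ κ Z : ℕ} {low : Cmd × T → R (T × Rep × Bool)}
  {σ : Stage S P} {p : P} {sc : SC} {I : S → Gr → Gr → (ℕ → Wk) → ℕ → Prop} {Φ rc : S → ℕ}
  {k' k : TC} {Sh' : T → Prop} {I' : T → Gr → (ℕ → ℤ) → Prop} {Ψ' : T → ℕ}

theorem Tab.of_eq {v v' : Lv S P} {G : Gr} (h : Tab v G) (e1 : v'.ed = v.ed) (e2 : v'.ids = v.ids)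
    (e3 : v'.al = v.al) : Tab v' G :=
  ⟨e1 ▸ h.ed, e2 ▸ h.nd, e2 ▸ h.ids, e3 ▸ h.al2, e3 ▸ h.al0⟩

/-- the part of the invariant that does not concern the flow; the stage has age `n` -/
structure Core (p : P) (sc : SC) (I : S → Gr → Gr → (ℕ → Wk) → ℕ → Prop) (rc : S → ℕ)
    (I' : T → Gr → (ℕ → ℤ) → Prop) (v : Lv S P) (t : T) (n : ℕ) (G H : Gr) (fl : ℕ → ℤ) :
    Prop where
  tab : Tab v G
  p : v.p = p
  lim : v.lim = sc.lim
  cnt : v.cnt < sc.lim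
  st : I v.st G H v.wk.get n
  low : I' t H fl
  ok : H.Ok sc.c'
  card : H.U.card + rc v.st ≤ sc.RB + sc.RU * n

/-- the part of the potential that does not concern the flow -/
def Pot (θ Z : ℕ) (k' : TC) (Φ rc : S → ℕ) (Ψ' : T → ℕ) (s : S) (n : ℕ) (t : T) : ℕ :=
  θ * (Φ s + rc s * (k'.AU + 3) + n * Z) + Ψ' t

theorem Fit.ctx (F : Fit g.X θ κ sc Z k' k) {B : Gr} {ed : Arr Ed} (h1 : ed.get = B.ed)
    (h2 : B.E ⊆ B.U) (h3 : ∀ e ∈ B.E, 1 ≤ (B.ed e).l) : Ctx g θ k.rp k' k.wt k.cc sc.K B ed :=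
  ⟨h1, h2, h3, F.rp, F.rpX, F.wt, F.cc⟩

theorem sp_fresh (St : StageSpec g σ p sc I Φ rc) (L : TowerSpec g θ κ low k' Sh' I' Ψ')
    (F : Fit g.X θ κ sc Z k' k) {v : Lv S P} {t : T} {s : So} {G B : Gr} (hT : Tab v G)
    (hp : v.p = p) (hl : v.lim = sc.lim) (hG : G.Ok sc.c) (hE : G.E ⊆ B.E) (he : B.ed = G.ed)
    (C : Ctx g θ k.rp k' k.wt k.cc sc.K B v.ed) (ht : Sh' t) (hs : PS θ k.rp B s) :
    Sp g (fresh low θ σ v t s) fun r u => ∃ H fl, Core p sc I rc I' r.1.1 r.1.2 r.1.1.cnt G H fl ∧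
      PS θ k.rp B (r.1.1.own, r.2) ∧
      (∀ e, val (r.1.1.own, r.2) e + pf H.E r.1.1.wk.get fl e = val s e) ∧
      θ * u + Pot θ Z k' Φ rc Ψ' r.1.1.st r.1.1.cnt r.1.2 + pm θ k.wt k.cc B (r.1.1.own, r.2) ≤
        pm θ k.wt k.cc B s + θ * k.AR := by
  unfold fresh
  rw [sp_bind, sp_call]
  refine (L.reset o0 ht).mono ?_
  rintro r u1 ⟨a1, -, a3⟩
  refine (sp_enum hT hG.1).bind ?_
  rintro l u2 ⟨b1, b2⟩
  rw [hp]
  refine (St.build G l v.wk.get hG b2).bind ?_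
  rintro b u3 ⟨c1, c2, c3, c4⟩
  have hm := F.m'
  have W : WI θ k.rp sc.K k'.c I' B (s, v.wk, r.1) Gr.emp fun _ => 0 :=
    ⟨a1, hs, fun _ h => absurd h (notMem_empty _), Gr.emp_ok _⟩
  refine (sp_ops L C W (l := b.2) (by rw [F.c']; exact c1.mono hE he)
    (by rw [F.c']; change 0 + _ ≤ _; omega)).bind ?_
  rintro s' u4 ⟨fl, d1, d2, d3, d4, d5⟩
  refine ⟨_, fl, ⟨hT.of_eq rfl rfl rfl, rfl, hl, F.lim, by change I b.1 G _ s'.2.1.get 0; rw [d2]; exact c2,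
    d1.low, F.c' ▸ d1.ok, ?_⟩, d1.ps, fun e => ?_, ?_⟩
  · change _ + rc b.1 ≤ sc.RB + sc.RU * 0
    have : Gr.emp.U.card = 0 := rfl
    omega
  · simpa [tot, pf, Gr.emp] using d4 e
  · change θ * (1 + u1 + (u2 + (u3 + (u4 + 0)))) + (θ * (Φ b.1 + rc b.1 * (k'.AU + 3) + 0 * Z) +
      Ψ' s'.2.2) + pm θ k.wt k.cc B s'.1 ≤ _
    change θ * u4 + Ψ' s'.2.2 + pm θ k.wt k.cc B s'.1 ≤ Ψ' r.1 + pm θ k.wt k.cc B s + _ at d5
    have e1 : (b.2.length + rc b.1) * (k'.AU + 3) ≤ sc.RB * (k'.AU + 3) := Nat.mul_le_mul_right _ c3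
    have e2 : 1 + u2 + u3 + Φ b.1 + rc b.1 * (k'.AU + 3) + (b.2.length * (k'.AU + 3) + 1) + k'.AR ≤
        k.AR := by
      have := F.AR; have := hG.2.1; rw [add_mul] at e1; omega
    have e3 := Nat.mul_le_mul_left θ e2
    simp only [mul_add, add_zero, zero_mul, mul_one] at e3 d5 ⊢
    omega

theorem sp_older (St : StageSpec g σ p sc I Φ rc) (L : TowerSpec g θ κ low k' Sh' I' Ψ')
    (F : Fit g.X θ κ sc Z k' k) {v : Lv S P} {t : T} {s : So} {G B H : Gr} {fl : ℕ → ℤ}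
    (h : Core p sc I rc I' v t (v.cnt + 1) G H fl) (hG : G.Ok sc.c) (hE : G.E ⊆ B.E)
    (he : B.ed = G.ed) (C : Ctx g θ k.rp k' k.wt k.cc sc.K B v.ed) (hs : PS θ k.rp B s) :
    Sp g (older low θ σ v t s) fun r u => ∃ H' fl',
      Core p sc I rc I' r.1.1 r.1.2 r.1.1.cnt G H' fl' ∧ PS θ k.rp B (r.1.1.own, r.2) ∧
      (∀ e, val (r.1.1.own, r.2) e + pf H'.E r.1.1.wk.get fl' e = val s e + pf H.E v.wk.get fl e) ∧
      θ * u + Pot θ Z k' Φ rc Ψ' r.1.1.st r.1.1.cnt r.1.2 + pm θ k.wt k.cc B (r.1.1.own, r.2) ≤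
        pm θ k.wt k.cc B s + Pot θ Z k' Φ rc Ψ' v.st (v.cnt + 1) t := by
  unfold older
  rw [sp_ite]
  refine ⟨fun hc => ⟨H, fl, ⟨h.tab.of_eq rfl rfl rfl, h.p, h.lim, h.lim ▸ hc, h.st, h.low, h.ok,
    h.card⟩, hs, fun _ => rfl, ?_⟩, fun hc => ?_⟩
  · change θ * 0 + Pot θ Z k' Φ rc Ψ' v.st (v.cnt + 1) t + pm θ k.wt k.cc B s ≤ _
    omega
  · have hF : ∀ q ∈ H.E, WOk sc.K B (H.ed q).l (v.wk.get q) := fun q hq =>
      ((St.rel h.st).wok q hq).mono hE fun e _ => by rw [he]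
    refine (sp_down C hF hs (Y := fun _ => 0) (A := Ψ' t + θ * k'.AD)
      (Q := fun r => ∀ e ∈ H.E, rsum r.2.1 e = fl e)
      ((L.dump o0 h.low (F.c' ▸ h.ok)).mono fun r u ⟨a1, a2, a3⟩ => ⟨a2, a1, by omega⟩)).bind ?_
    rintro d u ⟨r, a1, a2, a3, a4⟩
    refine (sp_fresh St L F h.tab h.p h.lim hG hE he C (L.sh h.low) a2).mono ?_
    rintro x u' ⟨H', fl', b1, b2, b3, b4⟩
    refine ⟨H', fl', b1, b2, fun e => ?_, ?_⟩
    · rw [b3 e, a3 e]
      congr 1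
      exact sum_congr rfl fun q hq => by rw [a1 q hq]
    · have e1 : sc.lim * Z ≤ (v.cnt + 1) * Z := Nat.mul_le_mul_right _ (by rw [← h.lim]; omega)
      have e2 := Nat.mul_le_mul_left θ (F.sav.trans e1)
      unfold Pot at b4 ⊢
      simp only [mul_add] at e2 b4 ⊢
      omega

theorem LI.core {x : Lv S P × T} {G : Gr} {f : ℕ → ℤ} : LI θ p sc I rc I' x G f ↔
    ∃ H fl, Core p sc I rc I' x.1 x.2 x.1.cnt G H fl ∧ PS θ 0 G (x.1.own, []) ∧
      ∀ e ∈ G.E, f e = x.1.own.get e + pf H.E x.1.wk.get fl e :=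
  ⟨fun ⟨H, fl, a1, a2, a3, a4, a5, a6, a7, a8, a9, a10⟩ =>
    ⟨H, fl, ⟨a1, a2, a3, a4, a5, a6, a7, a8⟩, a9, a10⟩,
   fun ⟨H, fl, ⟨a1, a2, a3, a4, a5, a6, a7, a8⟩, a9, a10⟩ =>
    ⟨H, fl, a1, a2, a3, a4, a5, a6, a7, a8, a9, a10⟩⟩

theorem LΨ_eq {v : Lv S P} {t : T} {G B : Gr} (h : Tab v G) (hU : B.U = G.U) (he : B.ed = G.ed)
    (r : Rep) : LΨ θ Z k' k Φ rc Ψ' (v, t) + θ * k.cc * r.length + k.wt * rw G.ed r =
      Pot θ Z k' Φ rc Ψ' v.st v.cnt t + pm θ k.wt k.cc B (v.own, r) := by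
  simp only [LΨ, Lv.om, Pot, pm, h.ed, h.ids, hU, he]; omega

theorem PS.nil {rp : ℕ} {G : Gr} {own : Arr ℤ} {r : Rep} (h : PS θ rp G (own, r)) (rp' : ℕ) :
    PS θ rp' G (own, []) := ⟨h.small, h.off, fun _ hx => nomatch hx⟩

end Crest.Agent.N325.Tw
end

-- ▼ part N325/Tw/Lvl
section

/-! # Row 325 (helper64): one level of the tower meets the specification -/

set_option autoImplicit false
open Finset

namespace Crest.Agent.N325.Tw

variable {S P T : Type} {g : Gl} {θ κ Z : ℕ} {low : Cmd × T → R (T × Rep × Bool)}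
  {σ : Stage S P} {p : P} {sc : SC} {I : S → Gr → Gr → (ℕ → Wk) → ℕ → Prop} {Φ rc : S → ℕ}
  {k' k : TC} {Sh' : T → Prop} {I' : T → Gr → (ℕ → ℤ) → Prop} {Ψ' : T → ℕ}

theorem Gr.Ok.one {c : Bd} {G : Gr} (h : G.Ok c) : ∀ e ∈ G.E, 1 ≤ (G.ed e).l :=
  fun e he => (h.2.2 e he).2.2.2.1

theorem val_nil (own : Arr ℤ) (e : ℕ) : val (own, []) e = own.get e := by simp [val]

theorem sp_updL (St : StageSpec g σ p sc I Φ rc) (L : TowerSpec g θ κ low k' Sh' I' Ψ')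
    (F : Fit g.X θ κ sc Z k' k) {v : Lv S P} {t : T} {G : Gr} {f : ℕ → ℤ} (o : Op)
    (h : LI θ p sc I rc I' (v, t) G f) (ho : G.ok o) (hG : G.Ok sc.c) (hG' : (G.app o).Ok sc.c) :
    Sp g (updL low θ σ o v t) fun r u => ∃ f', LI θ p sc I rc I' r.1 (G.app o) f' ∧
      RepOk (insert o.1 G.E) k.rp r.2.1 ∧
      (∀ e ∈ insert o.1 G.E, (if e ∈ (G.app o).E then f' e else 0) + rsum r.2.1 e =
        if e ∈ G.E then f e else 0) ∧
      θ * u + LΨ θ Z k' k Φ rc Ψ' r.1 + θ * k.cc * r.2.1.length + k.wt * rw (G.app o).ed r.2.1 ≤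
        LΨ θ Z k' k Φ rc Ψ' (v, t) + θ * k.AU := by
  obtain ⟨H, fl, c, hs, hf⟩ := LI.core.1 h
  dsimp only at c hs hf
  have hT := c.tab.app ho hG.1
  have hE : (G.app o).E ⊆ (G.both o).E := G.app_E_sub o
  have h1 : ∀ e ∈ (G.both o).E, 1 ≤ ((G.both o).ed e).l := fun e he => by
    by_cases e1 : e ∈ G.E
    · change 1 ≤ ((G.app o).ed e).l
      rw [Gr.app_ed ho e1]; exact hG.one e e1
    · obtain ⟨q, _ | d⟩ := o
      · exact absurd ((mem_insert.1 he).elim (fun e2 => e2 ▸ ho) id) e1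
      · exact hG'.one e he
  have C : Ctx g θ k.rp k' k.wt k.cc sc.K (G.both o) (tab o v).ed :=
    F.ctx hT.ed (Gr.ins_sub ho hG.1) h1
  obtain ⟨hs1, hom⟩ := hs.both (rp := k.rp) ho
  have R0 := St.rel c.st
  have W : WI θ k.rp sc.K k'.c I' (G.both o) ((v.own, []), v.wk, t) H fl :=
    ⟨c.low, hs1, fun q hq => (R0.wok q hq).mono (subset_insert _ _) fun e he => Gr.app_ed ho he,
      F.c' ▸ c.ok⟩
  unfold updL
  refine (St.upd o c.st c.cnt ho hG hG').bind ?_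
  rintro u t1 ⟨a1, a2, a3, a4⟩
  have hc := c.card
  have hm : sc.RU * (v.cnt + 1) ≤ sc.RU * sc.lim := Nat.mul_le_mul_left _ c.cnt
  have hm' := F.m'
  rw [mul_add, mul_one] at hm
  refine (sp_ops L C W (l := u.2) (by rw [F.c']; exact a1.mono hE rfl) (by rw [F.c']; omega)).bind ?_
  rintro s t2 ⟨fl1, b1, b2, b3, b4, b5⟩
  have e0 : (tab o v).cnt = v.cnt ∧ (tab o v).p = v.p ∧ (tab o v).lim = v.lim := by
    obtain ⟨q, _ | d⟩ := o <;> exact ⟨rfl, rfl, rfl⟩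
  have c1 : Core p sc I rc I' { tab o v with st := u.1, wk := s.2.1 } s.2.2 ((tab o v).cnt + 1)
      (G.app o) (apps H u.2) fl1 :=
    ⟨hT.of_eq rfl rfl rfl, e0.2.1.trans c.p, e0.2.2.trans c.lim, e0.1 ▸ c.cnt,
      by change I u.1 _ _ s.2.1.get _; rw [b2, e0.1]; exact a2, b1.low, F.c' ▸ b1.ok,
      by change _ + rc u.1 ≤ _; rw [e0.1, mul_add, mul_one]; omega⟩
  refine (sp_older St L F c1 hG' hE rfl C b1.ps).bind ?_
  rintro r t3 ⟨H2, fl2, d1, d2, d3, d4⟩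
  obtain ⟨g1, g2, g3, g4⟩ := fin1_spec (wt := k.wt) (cc := k.cc) ho hG.1 hG.one
    ((Nat.le_add_right _ _).trans F.rp) d2
  have R2 := St.rel d1.st
  refine ⟨fun e => (fin1 o (r.1.1.own, r.2)).1.get e + pf H2.E r.1.1.wk.get fl2 e,
    LI.core.2 ⟨H2, fl2, ⟨d1.tab.of_eq rfl rfl rfl, d1.p, d1.lim, d1.cnt, d1.st, d1.low, d1.ok,
      d1.card⟩, ⟨g1.small, g2, fun _ hx => nomatch hx⟩, fun _ _ => rfl⟩, g1.rep, fun e he => ?_, ?_⟩
  · have e1 : (if e ∈ G.E then f e else 0) = v.own.get e + pf H.E v.wk.get fl e := by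
      split_ifs with e2
      · exact hf e e2
      · rw [hs.off e e2, pf, sum_eq_zero, add_zero]
        exact fun q hq => by
          rw [scnt_eq_zero fun x hx e3 => e2 (by rw [← e3]; exact (R0.wok q hq).1 x hx), mul_zero]
    have e2 := b4 e
    have e3 := d3 e
    have e4 := g3 e
    simp only [tot, val_nil] at e2
    change _ = val s.1 e + pf (apps H u.2).E s.2.1.get fl1 e at e3
    rw [e1, ← e2, ← e3, ← e4]
    change (if e ∈ (G.app o).E then (fin1 o (r.1.1.own, r.2)).1.get e + pf H2.E r.1.1.wk.get fl2 e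
      else 0) + rsum (fin1 o (r.1.1.own, r.2)).2 e = _
    unfold val
    split_ifs with e5
    · ring
    · rw [g2 e e5, pf, sum_eq_zero, add_zero]
      exact fun q hq => by
        rw [scnt_eq_zero fun x hx e6 => e5 (by rw [← e6]; exact (R2.wok q hq).1 x hx), mul_zero]
  · have e1 := LΨ_eq (θ := θ) (Z := Z) (k' := k') (k := k) (Φ := Φ) (rc := rc) (Ψ' := Ψ')
      (v := { r.1.1 with own := (fin1 o (r.1.1.own, r.2)).1 }) (t := r.1.2) (B := G.both o)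
      (d1.tab.of_eq rfl rfl rfl) rfl rfl (fin1 o (r.1.1.own, r.2)).2
    have e2 := LΨ_eq (θ := θ) (Z := Z) (k' := k') (k := k) (Φ := Φ) (rc := rc) (Ψ' := Ψ') (t := t)
      (B := G) c.tab rfl rfl []
    have e3 : pm θ k.wt k.cc (G.both o) (v.own, []) = pm θ k.wt k.cc G (v.own, []) := by
      simp only [pm, hom, rw_nil]
    have e4 : (u.2.length + rc u.1) * (k'.AU + 3) ≤ (rc v.st + sc.RU) * (k'.AU + 3) :=
      Nat.mul_le_mul_right _ a3
    have e5 : t1 + Φ u.1 + rc u.1 * (k'.AU + 3) + (v.cnt + 1) * Z + (u.2.length * (k'.AU + 3) + 1) +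
        k.cc ≤ Φ v.st + rc v.st * (k'.AU + 3) + v.cnt * Z + k.AU := by
      have := F.AU; rw [add_mul, add_mul] at e4; rw [add_mul, one_mul]; omega
    have e6 := Nat.mul_le_mul_left θ e5
    change θ * t3 + _ + _ ≤ _ + Pot θ Z k' Φ rc Ψ' u.1 ((tab o v).cnt + 1) s.2.2 at d4
    rw [e0.1] at d4
    change θ * t2 + _ + _ ≤ Ψ' t + pm θ k.wt k.cc (G.both o) (v.own, []) + _ at b5
    change _ = Pot θ Z k' Φ rc Ψ' r.1.1.st r.1.1.cnt r.1.2 +
      pm θ k.wt k.cc (G.both o) (fin1 o (r.1.1.own, r.2)) at e1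
    change θ * (t1 + (t2 + (t3 + 0))) + LΨ θ Z k' k Φ rc Ψ'
      ({ r.1.1 with own := (fin1 o (r.1.1.own, r.2)).1 }, r.1.2) +
      θ * k.cc * (fin1 o (r.1.1.own, r.2)).2.length +
      k.wt * rw (G.app o).ed (fin1 o (r.1.1.own, r.2)).2 ≤ _
    simp only [List.length_nil, rw_nil, mul_zero, add_zero] at e2
    unfold Pot at d4 e1 e2
    simp only [mul_add, add_zero, mul_one] at e1 e2 e6 d4 b5 ⊢
    omega

theorem sp_again (St : StageSpec g σ p sc I Φ rc) (L : TowerSpec g θ κ low k' Sh' I' Ψ')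
    (F : Fit g.X θ κ sc Z k' k) {v : Lv S P} {t : T} {s : So} {G H : Gr} {fl : ℕ → ℤ} {l : List Ow}
    (hT : Tab v G) (hp : v.p = p) (hl : v.lim = sc.lim) (hc : v.cnt < sc.lim) (hG : G.Ok sc.c)
    (W : WI θ k.rp sc.K k'.c I' G (s, v.wk, t) H fl) (ho : Oks sc.K sc.c' G H l)
    (hI : I v.st G (apps H l) (wks v.wk.get l) (v.cnt + 1))
    (hm : H.U.card + l.length + rc v.st ≤ sc.RB + sc.RU * (v.cnt + 1))
    (hn : ¬Flat (apps H l) sc.th') :
    Sp g (again low θ σ v l t s) fun r u => ∃ H' fl' c, r.2.2 = true ∧ Good k.ψ κ G c ∧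
      Core p sc I rc I' r.1.1 r.1.2 r.1.1.cnt G H' fl' ∧ PS θ k.rp G (r.1.1.own, r.2.1) ∧
      (∀ e, val (r.1.1.own, r.2.1) e + pf H'.E r.1.1.wk.get fl' e =
        val s e + pf H.E v.wk.get fl e + c e) ∧
      θ * u + Pot θ Z k' Φ rc Ψ' r.1.1.st r.1.1.cnt r.1.2 + pm θ k.wt k.cc G (r.1.1.own, r.2.1) ≤
        pm θ k.wt k.cc G s + Pot θ Z k' Φ rc Ψ' v.st (v.cnt + 1) t +
          θ * (l.length * (k'.AU + 3) + k'.AS + 3) := by
  have C : Ctx g θ k.rp k' k.wt k.cc sc.K G v.ed := F.ctx hT.ed hG.1 hG.one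
  have hm1 : sc.RU * (v.cnt + 1) ≤ sc.RU * sc.lim := Nat.mul_le_mul_left _ hc
  have hm' := F.m'
  unfold again
  refine (sp_ops L C W (l := l) (F.c' ▸ ho) (by rw [F.c']; omega)).bind ?_
  rintro u t1 ⟨fl1, b1, b2, b3, b4, b5⟩
  have hI' : I v.st G (apps H l) u.2.1.get (v.cnt + 1) := by rw [b2]; exact hI
  have R1 := St.rel hI'
  refine (sp_down C b1.wok b1.ps (Y := Ψ') (A := Ψ' u.2.2 + θ * k'.AS)
    (Q := fun r => ∃ f' c, I' r.1 (apps H l) f' ∧ Good k'.ψ κ (apps H l) c ∧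
      ∀ e ∈ (apps H l).E, f' e + rsum r.2.1 e = fl1 e + c e)
    ((L.step o0 b1.low b1.ok).mono fun r u ⟨f', c, a1, a2, a3, a4, a5⟩ => ⟨⟨f', c, a1, ?_, a3⟩,
      a2, a5⟩)).bind ?_
  · split_ifs at a4
    · exact a4
    · exact absurd (F.th' ▸ a4.1) hn
  rintro d t2 ⟨r, ⟨f2, c, a1, a2, a3⟩, a4, a5, a6⟩
  have c1 : Core p sc I rc I' { v with wk := u.2.1 } d.2.1 (v.cnt + 1) G (apps H l) f2 :=
    ⟨hT.of_eq rfl rfl rfl, hp, hl, hc, hI', a1, F.c' ▸ b1.ok, by change _ + rc v.st ≤ _; omega⟩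
  refine (sp_older St L F c1 hG subset_rfl rfl C a4).bind ?_
  rintro x t3 ⟨H3, f3, d1, d2, d3, d4⟩
  refine ⟨H3, f3, pf (apps H l).E u.2.1.get c, rfl, ?_, d1, d2, fun e => ?_, ?_⟩
  · rw [F.ψ, ← F.ψ']; exact R1.good a2
  · have e2 := b4 e
    simp only [tot] at e2
    refine (d3 e).trans ?_
    change val d.1 e + pf (apps H l).E u.2.1.get f2 e = _
    rw [a5 e, ← e2, add_assoc, add_assoc]
    congr 1
    simp only [pf, ← sum_add_distrib]
    exact sum_congr rfl fun q hq => by rw [← add_mul, ← add_mul, add_comm, a3 q hq]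
  · change θ * t3 + _ + _ ≤ _ + Pot θ Z k' Φ rc Ψ' v.st (v.cnt + 1) d.2.1 at d4
    change θ * t1 + _ + _ ≤ Ψ' t + pm θ k.wt k.cc G s + _ at b5
    change θ * (t1 + (t2 + (t3 + 0))) + Pot θ Z k' Φ rc Ψ' x.1.1.st x.1.1.cnt x.1.2 +
      pm θ k.wt k.cc G (x.1.1.own, x.2) ≤ _
    unfold Pot at d4 ⊢
    simp only [mul_add, add_zero, mul_one] at d4 b5 ⊢
    omega

end Crest.Agent.N325.Tw
end

-- ▼ part N325/Tw/Top
section

/-! # Row 325 (helper64): `lvl_spec` -/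

set_option autoImplicit false
open Finset

namespace Crest.Agent.N325.Tw

variable {S P T : Type} {g : Gl} {θ κ Z : ℕ} {low : Cmd × T → R (T × Rep × Bool)}
  {σ : Stage S P} {p : P} {sc : SC} {I : S → Gr → Gr → (ℕ → Wk) → ℕ → Prop} {Φ rc : S → ℕ}
  {k' k : TC} {Sh' : T → Prop} {I' : T → Gr → (ℕ → ℤ) → Prop} {Ψ' : T → ℕ}

/-- the common end of the three ways of making a step -/
theorem step_end {v v' : Lv S P} {t t' : T} {G H H' : Gr} {f fl fl' c : ℕ → ℤ} {r : Rep} {u A : ℕ}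
    (hT : Tab v G) (hf : ∀ e ∈ G.E, f e = v.own.get e + pf H.E v.wk.get fl e)
    (c1 : Core p sc I rc I' v' t' v'.cnt G H' fl') (hs : PS θ k.rp G (v'.own, r))
    (hv : ∀ e, val (v'.own, r) e + pf H'.E v'.wk.get fl' e =
      v.own.get e + pf H.E v.wk.get fl e + c e)
    (hu : u + Pot θ Z k' Φ rc Ψ' v'.st v'.cnt t' + pm θ k.wt k.cc G (v'.own, r) ≤
      pm θ k.wt k.cc G (v.own, []) + Pot θ Z k' Φ rc Ψ' v.st v.cnt t + A) :
    ∃ f', LI θ p sc I rc I' (v', t') G f' ∧ RepOk G.E k.rp r ∧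
      (∀ e ∈ G.E, f' e + rsum r e = f e + c e) ∧
      u + LΨ θ Z k' k Φ rc Ψ' (v', t') + θ * k.cc * r.length + k.wt * rw G.ed r ≤
        LΨ θ Z k' k Φ rc Ψ' (v, t) + A := by
  refine ⟨fun e => v'.own.get e + pf H'.E v'.wk.get fl' e,
    LI.core.2 ⟨H', fl', c1, hs.nil 0, fun _ _ => rfl⟩, hs.rep, fun e he => ?_, ?_⟩
  · rw [hf e he, ← hv e, val]; ring
  · have e1 := LΨ_eq (θ := θ) (Z := Z) (k' := k') (k := k) (Φ := Φ) (rc := rc) (Ψ' := Ψ') (t := t')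
      (B := G) c1.tab rfl rfl r
    have e2 := LΨ_eq (θ := θ) (Z := Z) (k' := k') (k := k) (Φ := Φ) (rc := rc) (Ψ' := Ψ') (t := t)
      (B := G) hT rfl rfl []
    simp only [List.length_nil, rw_nil, mul_zero, add_zero] at e2
    omega

theorem sp_stepL (St : StageSpec g σ p sc I Φ rc) (L : TowerSpec g θ κ low k' Sh' I' Ψ')
    (F : Fit g.X θ κ sc Z k' k) {v : Lv S P} {t : T} {G : Gr} {f : ℕ → ℤ}
    (h : LI θ p sc I rc I' (v, t) G f) (hG : G.Ok sc.c) :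
    Sp g (stepL low θ κ σ v t) fun r u => ∃ f' c, LI θ p sc I rc I' r.1 G f' ∧
      RepOk G.E k.rp r.2.1 ∧ (∀ e ∈ G.E, f' e + rsum r.2.1 e = f e + c e) ∧
      (if r.2.2 then Good k.ψ κ G c else Flat G k.th ∧ ∀ e, c e = 0) ∧
      θ * u + LΨ θ Z k' k Φ rc Ψ' r.1 + θ * k.cc * r.2.1.length + k.wt * rw G.ed r.2.1 ≤
        LΨ θ Z k' k Φ rc Ψ' (v, t) + θ * k.AS := by
  obtain ⟨H, fl, c, hs, hf⟩ := LI.core.1 h
  dsimp only at c hs hf
  have C : Ctx g θ k.rp k' k.wt k.cc sc.K G v.ed := F.ctx c.tab.ed hG.1 hG.one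
  have R0 := St.rel c.st
  have hA := F.AS
  unfold stepL
  refine (sp_down C R0.wok (hs.nil k.rp) (Y := Ψ') (A := Ψ' t + θ * k'.AS)
    (Q := fun r => ∃ f' c, I' r.1 H f' ∧ (∀ e ∈ H.E, f' e + rsum r.2.1 e = fl e + c e) ∧
      (if r.2.2 then Good k'.ψ κ H c else Flat H k'.th ∧ ∀ e, c e = 0))
    ((L.step o0 c.low (F.c' ▸ c.ok)).mono fun r u ⟨f', c, a1, a2, a3, a4, a5⟩ =>
      ⟨⟨f', c, a1, a3, a4⟩, a2, a5⟩)).bind ?_
  rintro d t1 ⟨r, ⟨f1, c0, a1, a2, a3⟩, a4, a5, a6⟩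
  dsimp only at a1 a2 a3
  have hv : ∀ e, val d.1 e + pf H.E v.wk.get f1 e =
      v.own.get e + pf H.E v.wk.get fl e + pf H.E v.wk.get c0 e := fun e => by
    rw [a5 e, val_nil, add_assoc, add_assoc]
    congr 1
    simp only [pf, ← sum_add_distrib]
    exact sum_congr rfl fun q hq => by rw [← add_mul, ← add_mul, add_comm, a2 q hq]
  rw [sp_ite]
  refine ⟨fun hd => ?_, fun hd => ?_⟩
  · rw [if_pos hd] at a3
    obtain ⟨f', b1, b2, b3, b4⟩ := step_end (k := k) (k' := k') (Z := Z) (Φ := Φ) (Ψ' := Ψ') (t := t)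
      (v' := { v with own := d.1.1 }) (u := θ * (t1 + 0)) (A := θ * k.AS) c.tab hf
      ⟨c.tab.of_eq rfl rfl rfl, c.p, c.lim, c.cnt, c.st, a1, c.ok, c.card⟩ a4 hv (by
        change _ + Pot θ Z k' Φ rc Ψ' v.st v.cnt d.2.1 + pm θ k.wt k.cc G d.1 ≤ _
        unfold Pot
        simp only [mul_add, add_zero, mul_comm θ (2 * _), mul_assoc 2, mul_comm k'.AS θ] at hA ⊢
        omega)
    exact ⟨f', _, b1, b2, b3, by
      change (if true = true then _ else _); rw [if_pos rfl, F.ψ, ← F.ψ']; exact R0.good a3, b4⟩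
  rw [if_neg hd] at a3
  have h0 : ∀ e, pf H.E v.wk.get c0 e = 0 := fun e => by simp [pf, a3.2]
  refine (St.probe c.st c.cnt hG (F.th' ▸ a3.1)).bind ?_
  rintro ⟨s1, l, ow⟩ t2 ⟨b1, ⟨b2, b3, b4, b5, b6⟩ | ⟨b2, b3, b4, b5, b6, b7⟩⟩
  · dsimp only at b1 b2 b3 b4 b5 b6
    subst b2
    have e1 : rc s1 * (k'.AU + 3) ≤ rc v.st * (k'.AU + 3) := Nat.mul_le_mul_right _ b4
    have e2 := Nat.mul_le_mul_left θ e1
    have e3 := Nat.mul_le_mul_left θ b1
    have c1 : ∀ own, Core p sc I rc I' { v with st := s1, own := own } d.2.1 v.cnt G H f1 :=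
      fun own => ⟨c.tab.of_eq rfl rfl rfl, c.p, c.lim, c.cnt, b3, a1, c.ok,
        by have := c.card; change _ + rc s1 ≤ _; omega⟩
    cases ow with
    | none =>
      obtain ⟨f', g1, g2, g3, g4⟩ := step_end (k := k) (k' := k') (Z := Z) (Φ := Φ) (Ψ' := Ψ')
        (t := t) (v' := { v with st := s1, own := d.1.1 }) (u := θ * (t1 + (t2 + 0)))
        (A := θ * k.AS) c.tab hf (c1 _) a4 hv (by
          change _ + Pot θ Z k' Φ rc Ψ' s1 v.cnt d.2.1 + pm θ k.wt k.cc G d.1 ≤ _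
          unfold Pot
          simp only [mul_add, add_zero, mul_comm θ (2 * _), mul_assoc 2, mul_comm k'.AS θ]
            at hA e2 e3 ⊢
          omega)
      exact ⟨f', _, g1, g2, g3, by
        change (if false = true then _ else _)
        rw [if_neg Bool.false_ne_true, F.th]; exact ⟨b6 rfl, h0⟩, g4⟩
    | some w =>
      have hw := b5 w rfl
      refine (sp_cyc (wt := k.wt) (cc := k.cc) c.tab.ed hG F.lX F.gX F.rpκ F.rpX hw a4).bind ?_
      rintro s2 t3 ⟨d1, d2, d3, d4⟩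
      have e4 := Nat.mul_le_mul_left θ d1
      obtain ⟨f', g1, g2, g3, g4⟩ := step_end (k := k) (k' := k') (Z := Z) (Φ := Φ) (Ψ' := Ψ')
        (t := t) (v' := { v with st := s1, own := s2.1 }) (u := θ * (t1 + (t2 + (t3 + 0))))
        (c := fun e => amt κ G.ed w * scnt w e) (A := θ * k.AS) c.tab hf (c1 _) d2
        (fun e => by
          change val s2 e + pf H.E v.wk.get f1 e = _
          rw [d3 e, add_right_comm, hv e, h0 e, add_zero]) (by
          change _ + Pot θ Z k' Φ rc Ψ' s1 v.cnt d.2.1 + pm θ k.wt k.cc G s2 ≤ _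
          unfold Pot
          simp only [mul_add, add_zero, mul_comm θ (2 * _), mul_assoc 2, mul_comm k'.AS θ]
            at hA e2 e3 e4 ⊢
          omega)
      refine ⟨f', _, g1, g2, g3, ?_, g4⟩
      change (if true = true then _ else _)
      rw [if_pos rfl, F.ψ]
      exact hw.good hG.one ((wl_le fun x hx => (hG.2.2 _ (hw.1 x hx)).2.2.2.2.1).trans
        ((Nat.mul_le_mul_right _ hw.2.1).trans F.lκ))
  · dsimp only at b1 b2 b3 b4 b5 b6 b7
    subst b3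
    have hl : ¬l.isEmpty = true := by simpa using b2
    change Sp g (if l.isEmpty then _ else _) _
    rw [if_neg hl]
    have hc := c.card
    refine (sp_again (v := { v with st := s1 }) (fl := f1) St L F (c.tab.of_eq rfl rfl rfl) c.p c.lim
      c.cnt hG ⟨a1, a4, R0.wok, F.c' ▸ c.ok⟩ b4 b5
      (by change _ + rc s1 ≤ sc.RB + sc.RU * (v.cnt + 1); rw [mul_add, mul_one]; omega) b7).mono ?_
    rintro x t3 ⟨H3, f3, c3, d0, d1, d2, d3, d4, d5⟩
    have e1 : (l.length + rc s1) * (k'.AU + 3) ≤ (rc v.st + sc.RU) * (k'.AU + 3) :=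
      Nat.mul_le_mul_right _ b6
    rw [add_mul, add_mul] at e1
    have e2 := Nat.mul_le_mul_left θ e1
    have e3 := Nat.mul_le_mul_left θ b1
    obtain ⟨f', g1, g2, g3, g4⟩ := step_end (k := k) (k' := k') (Z := Z) (Φ := Φ) (Ψ' := Ψ')
      (t := t) (u := θ * (t1 + (t2 + t3))) (c := c3) (A := θ * k.AS) c.tab hf d2 d3
      (fun e => by
        rw [d4 e]; change val d.1 e + pf H.E v.wk.get f1 e + _ = _
        rw [hv e, h0 e, add_zero]) (by
        change _ ≤ _ + Pot θ Z k' Φ rc Ψ' s1 (v.cnt + 1) d.2.1 + _ at d5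
        unfold Pot at d5 ⊢
        rw [add_mul v.cnt 1, one_mul] at d5
        generalize k'.AU + 3 = a at *
        simp only [mul_add, mul_comm θ (2 * _), mul_assoc 2, mul_comm k'.AS θ] at hA e2 e3 d5 ⊢
        linarith [Nat.zero_le ((k.wt + k.cc) * κ), Nat.zero_le (sc.K * θ), Nat.zero_le θ])
    exact ⟨f', c3, g1, g2, g3, by rw [if_pos d0]; exact d1, g4⟩

theorem sp_dumpL (St : StageSpec g σ p sc I Φ rc) (L : TowerSpec g θ κ low k' Sh' I' Ψ')
    (F : Fit g.X θ κ sc Z k' k) {v : Lv S P} {t : T} {G : Gr} {f : ℕ → ℤ}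
    (h : LI θ p sc I rc I' (v, t) G f) (hG : G.Ok sc.c) :
    Sp g (dumpL low θ v t) fun r u => RepOk G.E k.rp r.2.1 ∧ (∀ e ∈ G.E, rsum r.2.1 e = f e) ∧
      θ * u + θ * k.cc * r.2.1.length + k.wt * rw G.ed r.2.1 ≤
        LΨ θ Z k' k Φ rc Ψ' (v, t) + θ * k.AD := by
  obtain ⟨H, fl, c, hs, hf⟩ := LI.core.1 h
  dsimp only at c hs hf
  have C : Ctx g θ k.rp k' k.wt k.cc sc.K G v.ed := F.ctx c.tab.ed hG.1 hG.one
  unfold dumpL
  refine (sp_down C (St.rel c.st).wok (hs.nil k.rp) (Y := fun _ => 0) (A := Ψ' t + θ * k'.AD)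
    (Q := fun r => ∀ e ∈ H.E, rsum r.2.1 e = fl e)
    ((L.dump o0 c.low (F.c' ▸ c.ok)).mono fun r u ⟨a1, a2, a3⟩ => ⟨a2, a1, by omega⟩)).bind ?_
  rintro d u ⟨r, a1, a2, a3, a4⟩
  refine (sp_repAll (wt := k.wt) (cc := k.cc) c.tab hG.1 hG.one
    ((Nat.le_add_right _ _).trans F.rp) a2).bind ?_
  rintro r' u' ⟨b1, b2, b3, b4⟩
  refine ⟨b2, fun e he => ?_, ?_⟩
  · change rsum r' e = _
    rw [b3 e he, a3 e, val_nil, hf e he]
    congr 1
    exact sum_congr rfl fun q hq => by rw [a1 q hq]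
  · have e2 := LΨ_eq (θ := θ) (Z := Z) (k' := k') (k := k) (Φ := Φ) (rc := rc) (Ψ' := Ψ') (t := t)
      (B := G) c.tab rfl rfl []
    simp only [List.length_nil, rw_nil, mul_zero, add_zero] at e2
    have e3 : u' + k.cc * G.U.card + k'.AD + 2 ≤ k.AD := by
      have := F.AD
      have := Nat.mul_le_mul_right (k.cc + 1) hG.2.1
      rw [mul_add, mul_one, mul_comm] at this; omega
    have e4 := Nat.mul_le_mul_left θ e3
    change θ * (u + (u' + 0)) + θ * k.cc * r'.length + k.wt * rw G.ed r' ≤ _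
    unfold Pot at e2
    simp only [mul_add, add_zero, ← mul_assoc] at e2 e4 ⊢
    omega

/-- **one more level** -/
theorem lvl_spec (St : StageSpec g σ p sc I Φ rc) (L : TowerSpec g θ κ low k' Sh' I' Ψ')
    (F : Fit g.X θ κ sc Z k' k) :
    TowerSpec g θ κ (lvl low θ κ σ) k (fun x => x.1.p = p ∧ x.1.lim = sc.lim ∧ Sh' x.2)
      (LI θ p sc I rc I') (LΨ θ Z k' k Φ rc Ψ') where
  sh := fun ⟨_, _, _, a2, a3, _, _, a6, _⟩ => ⟨a2, a3, L.sh a6⟩
  stale := fun {s G f} h e he => by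
    obtain ⟨H, fl, c, hs, hf⟩ := LI.core.1 h
    have e1 := (St.rel c.st).stale (L.stale c.low) he
    have e2 := hs.small e
    have e3 := F.er
    rw [hf e he]
    refine (Nat.mul_le_mul_right _ (Int.natAbs_add_le _ _)).trans ?_
    rw [add_mul]; change (s.1.own.get e).natAbs * _ < θ at e2; omega
  upd := fun o h ho hG hG' => sp_updL St L F o h ho (F.c ▸ hG) (F.c ▸ hG')
  step := fun _ h hG => sp_stepL St L F h (F.c ▸ hG)
  dump := fun _ h hG => sp_dumpL St L F h (F.c ▸ hG)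
  reset := fun {s} _ h => by
    change Sp g (resetL low θ σ s.1 s.2) _
    have hs : PS θ k.rp Gr.emp (Arr.cst 0, []) :=
      ⟨fun _ => by simpa using F.θ1, fun _ _ => rfl, fun _ hx => nomatch hx⟩
    refine (sp_fresh St L F (Tab.clear s.1) h.1 h.2.1 (Gr.emp_ok _) subset_rfl rfl
      (F.ctx rfl subset_rfl fun _ he => absurd he (notMem_empty _)) h.2.2 hs).bind ?_
    rintro r u ⟨H, fl, c, a1, -, a3⟩
    have e0 : r.2 = [] := List.eq_nil_iff_forall_not_mem.2 fun x hx =>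
      absurd (a1.rep x hx).1 (notMem_empty _)
    refine ⟨LI.core.2 ⟨H, fl, c, a1.nil 0, fun _ he => absurd he (notMem_empty _)⟩, e0, ?_⟩
    have e1 := LΨ_eq (θ := θ) (Z := Z) (k' := k') (k := k) (Φ := Φ) (rc := rc) (Ψ' := Ψ')
      (t := r.1.2) (B := Gr.emp) c.tab rfl rfl r.2
    have e2 : pm θ k.wt k.cc Gr.emp (Arr.cst 0, []) = 0 := by simp [pm, om, Gr.emp]
    change θ * (u + 0) + LΨ θ Z k' k Φ rc Ψ' (r.1.1, r.1.2) ≤ _
    rw [add_zero]; omega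

end Crest.Agent.N325.Tw
end

-- ▼ part N325/Tw/Base
section

/-! # Row 325 (helper73): the bottom level of the tower meets the specification -/

set_option autoImplicit false
open Finset

namespace Crest.Agent.N325.Tw

variable {S P : Type} {g : Gl} {θ κ K T : ℕ} {k : TC} {bot : List (ℕ × Ed) → R (Option Wk)}

theorem Tab.own {v : Lv S P} {G : Gr} (h : Tab v G) (a : Arr ℤ) : Tab { v with own := a } G :=
  ⟨h.ed, h.nd, h.ids, h.al2, h.al0⟩

theorem Tab.om_eq {v : Lv S P} {G : Gr} (h : Tab v G) : v.om = om G.U G.ed v.own.get := by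
  rw [Lv.om, h.ids, h.ed]

theorem PS.zero {rp : ℕ} {G : Gr} {s : So} (h : PS θ rp G s) : PS θ 0 G (s.1, []) :=
  ⟨h.small, h.off, fun _ hx => nomatch hx⟩

theorem PS.any {rp : ℕ} {G : Gr} {own : Arr ℤ} (h : PS θ 0 G (own, [])) : PS θ rp G (own, []) :=
  ⟨h.small, h.off, fun _ hx => nomatch hx⟩

/-- **the bottom level is a tower** -/
theorem base_spec (hb : BotSpec g bot k.c k.ψ K T) (hF : FitB g.X θ κ K T k) :
    TowerSpec g θ κ (base (S := S) (P := P) θ κ bot) k (fun _ => True) (BI θ)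
      fun v => (k.wt + k.cc) * v.om := by
  have hθ : θ ≤ k.rp := (Nat.le_add_right _ _).trans hF.rpκ
  refine ⟨fun _ => trivial, ?_, ?_, ?_, ?_, ?_⟩
  · rintro s G f ⟨-, h2, h3⟩ e he
    rw [h3 e he]
    exact (h2.small e).le.trans hF.er
  · rintro s G f o ⟨h1, h2, h3⟩ ho hG -
    have hl : ∀ e ∈ G.E, 1 ≤ (G.ed e).l := fun e he => (hG.2.2 e he).2.2.2.1
    obtain ⟨a1, a2⟩ := PS.both (rp := k.rp) ho h2
    obtain ⟨b1, b2, b3, b4⟩ := fin1_spec (wt := k.wt) (cc := k.cc) ho hG.1 hl hθ a1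
    have hT := (h1.app ho hG.1).own (fin1 o (s.own, [])).1
    simp only [base, if_true, sp_pure]
    refine ⟨(fin1 o (s.own, [])).1.get, ⟨hT, ⟨b1.small, b2, fun _ hx => nomatch hx⟩,
      fun _ _ => rfl⟩, b1.rep, fun e _ => ?_, ?_⟩
    · have e1 : (if e ∈ (G.app o).E then (fin1 o (s.own, [])).1.get e else 0) =
          (fin1 o (s.own, [])).1.get e := by
        split_ifs with e2
        · rfl
        · exact (b2 e e2).symm
      have e2 : (if e ∈ G.E then f e else 0) = s.own.get e := by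
        split_ifs with e2
        · exact h3 e e2
        · exact (h2.off e e2).symm
      rw [e1, e2]
      have := b3 e
      simpa [val] using this
    · rw [hT.om_eq, h1.om_eq, ← a2]
      have e1 := Nat.mul_le_mul_left θ hF.AU
      simp only [pm, List.length_nil, mul_zero, rw_nil, add_zero] at b4
      change _ + (k.wt + k.cc) * om (G.both o).U (G.both o).ed (fin1 o (s.own, [])).1.get + _ +
        k.wt * rw (G.both o).ed _ ≤ _
      omega
  · rintro s G f o ⟨h1, h2, h3⟩ hG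
    have hl : ∀ e ∈ G.E, 1 ≤ (G.ed e).l := fun e he => (hG.2.2 e he).2.2.2.1
    have hm := hG.2.1
    have hA := hF.AS
    simp only [base, one_ne_zero, if_false, if_true]
    refine (sp_enum h1 hG.1).bind ?_
    rintro l t ⟨ht, hE⟩
    refine (hb G l hG hE).bind ?_
    rintro u t' ⟨ht', hu, hn⟩
    cases u with
    | none =>
      simp only [sp_pure]
      refine ⟨f, fun _ => 0, ⟨h1, h2, h3⟩, fun _ hx => (nomatch hx), fun e _ => by simp, ?_, ?_⟩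
      · simp only [Bool.false_eq_true, if_false]
        exact ⟨hF.th ▸ hn rfl, fun _ => trivial⟩
      · have e1 : θ * (t + (t' + 0)) ≤ θ * (k.c.m + T + 2 * K + 3) :=
          Nat.mul_le_mul_left _ (by omega)
        simp only [List.length_nil, mul_zero, rw_nil, add_zero] at e1 ⊢
        omega
    | some w =>
      have hw := hu w rfl
      refine (sp_cyc (wt := k.wt) (cc := k.cc) h1.ed hG hF.lX hF.gX hF.rpκ hF.rpX hw
        (h2.any (rp := k.rp))).bind ?_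
      rintro s' t'' ⟨c0, c1, c2, c3⟩
      have hT := h1.own s'.1
      have hκ : wl G.ed w ≤ κ :=
        ((wl_le fun x hx => (hG.2.2 _ (hw.1 x hx)).2.2.2.2.1).trans
          (Nat.mul_le_mul_right _ hw.2.1)).trans hF.lκ
      simp only [sp_pure]
      refine ⟨s'.1.get, fun e => amt κ G.ed w * scnt w e, ⟨hT, c1.zero, fun _ _ => rfl⟩, c1.rep,
        fun e he => ?_, ?_, ?_⟩
      · have := c2 e
        rw [h3 e he]
        simpa [val] using this
      · simp only [if_true]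
        exact hw.good hl hκ
      · rw [hT.om_eq, h1.om_eq]
        have e1 : θ * (t + (t' + (t'' + 0))) ≤ θ * (k.c.m + T + 2 * K + 3) :=
          Nat.mul_le_mul_left _ (by omega)
        simp only [pm, List.length_nil, mul_zero, rw_nil, add_zero] at c3 e1 ⊢
        omega
  · rintro s G f o ⟨h1, h2, h3⟩ hG
    have hl : ∀ e ∈ G.E, 1 ≤ (G.ed e).l := fun e he => (hG.2.2 e he).2.2.2.1
    have hm := hG.2.1
    simp only [base, OfNat.ofNat_ne_zero, OfNat.ofNat_ne_one, if_false, if_true]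
    refine (sp_repAll (wt := k.wt) (cc := k.cc) h1 hG.1 hl hθ (h2.any (rp := k.rp))).bind ?_
    rintro r t ⟨c0, c1, c2, c3⟩
    simp only [sp_pure]
    refine ⟨c1, fun e he => ?_, ?_⟩
    · rw [c2 e he, h3 e he]; simp [val]
    · rw [h1.om_eq]
      have e1 : θ * (k.c.m * (k.cc + 1) + 1) ≤ θ * k.AD := Nat.mul_le_mul_left _ hF.AD
      have e2 : θ * t ≤ θ * (k.c.m + 1) := Nat.mul_le_mul_left _ (by omega)
      have e3 : θ * k.cc * G.U.card ≤ θ * k.cc * k.c.m := Nat.mul_le_mul_left _ hm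
      simp only [pm, List.length_nil, mul_zero, rw_nil, add_zero] at c3 ⊢
      nlinarith
  · rintro s o -
    have e0 : ¬(3 : ℕ) = 2 := by omega
    simp only [base, OfNat.ofNat_ne_zero, OfNat.ofNat_ne_one, e0, if_false, sp_pure]
    refine ⟨⟨Tab.clear s, ⟨fun e => ?_, fun _ _ => rfl, fun _ hx => nomatch hx⟩, fun _ he => ?_⟩,
      trivial, ?_⟩
    · simpa [clear] using hF.θ1
    · exact absurd he (notMem_empty _)
    · simp [Lv.om, clear, om]

end Crest.Agent.N325.Tw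
end

-- ▼ part N325/Tw/Tower

/-! # Row 325 (helper64): the tower meets the specification -/

set_option autoImplicit false

namespace Crest.Agent.N325.Tw

variable {S P T T0 : Type} {g : Gl} {θ κ : ℕ}

/-- change of the type of the states -/
theorem TowerSpec.map {run0 : Cmd × T0 → R (T0 × Rep × Bool)} {run : Cmd × T → R (T × Rep × Bool)}
    {k : TC} {Sh0 : T0 → Prop} {I0 : T0 → Gr → (ℕ → ℤ) → Prop} {Ψ0 : T0 → ℕ}
    (h : TowerSpec g θ κ run0 k Sh0 I0 Ψ0) (Rl : T → T0 → Prop) {Ψ : T → ℕ}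
    (hΨ : ∀ s s0, Rl s s0 → Ψ s = Ψ0 s0)
    (hr : ∀ c s s0 (Q : T0 × Rep × Bool → ℕ → Prop), Rl s s0 → Sp g (run0 (c, s0)) Q →
      Sp g (run (c, s)) fun r t => ∃ r0, Rl r.1 r0 ∧ Q (r0, r.2) t) :
    TowerSpec g θ κ run k (fun s => ∃ s0, Rl s s0 ∧ Sh0 s0) (fun s G f => ∃ s0, Rl s s0 ∧ I0 s0 G f)
      Ψ where
  sh := fun ⟨s0, a, b⟩ => ⟨s0, a, h.sh b⟩
  stale := fun ⟨_, _, b⟩ => h.stale b
  upd := fun o ⟨s0, a, b⟩ ho hG hG' => (hr _ _ _ _ a (h.upd o b ho hG hG')).mono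
    fun r t ⟨r0, c, f', d1, d2, d3, d4⟩ =>
      ⟨f', ⟨r0, c, d1⟩, d2, d3, by rw [hΨ _ _ a, hΨ _ _ c]; exact d4⟩
  step := fun o ⟨s0, a, b⟩ hG => (hr _ _ _ _ a (h.step o b hG)).mono
    fun r t ⟨r0, c, f', c', d1, d2, d3, d4, d5⟩ =>
      ⟨f', c', ⟨r0, c, d1⟩, d2, d3, d4, by rw [hΨ _ _ a, hΨ _ _ c]; exact d5⟩
  dump := fun o ⟨s0, a, b⟩ hG => (hr _ _ _ _ a (h.dump o b hG)).mono
    fun r t ⟨_, _, d1, d2, d3⟩ => ⟨d1, d2, by rw [hΨ _ _ a]; exact d3⟩
  reset := fun o ⟨s0, a, b⟩ => (hr _ _ _ _ a (h.reset o b)).mono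
    fun r t ⟨r0, c, d1, d2, d3⟩ => ⟨⟨r0, c, d1⟩, d2, by rw [hΨ _ _ c]; exact d3⟩

theorem TowerSpec.shape {run : Cmd × T → R (T × Rep × Bool)} {k : TC} {Sh Sh' : T → Prop}
    {I : T → Gr → (ℕ → ℤ) → Prop} {Ψ : T → ℕ} (h : TowerSpec g θ κ run k Sh I Ψ)
    (e : ∀ s, Sh s ↔ Sh' s) : TowerSpec g θ κ run k Sh' I Ψ :=
  (funext fun s => propext (e s) : Sh = Sh') ▸ h

/-- the shape of a tower of height `n`: the level at height `i + 1` has the parameters number `i` -/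
def Shape (ps : ℕ → P) (lim : ℕ → ℕ) : ℕ → List (Lv S P) → Prop
  | _, [] => False
  | 0, _ :: _ => True
  | n + 1, v :: l => v.p = ps n ∧ v.lim = lim n ∧ Shape ps lim n l

/-- **the tower**: stage `i` sits between the heights `i + 1` and `i`; `k 0` is the bottom -/
theorem tower_spec {σ : Stage S P} {bot : List (ℕ × Ed) → R (Option Wk)} {ps : ℕ → P} {sc : ℕ → SC}
    {Z : ℕ → ℕ} {k : ℕ → TC} {K Tb : ℕ} (hb : BotSpec g bot (k 0).c (k 0).ψ K Tb)
    (hB : FitB g.X θ κ K Tb (k 0)) (n : ℕ)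
    (hs : ∀ i < n, ∃ I Φ rc, StageSpec g σ (ps i) (sc i) I Φ rc)
    (hf : ∀ i < n, Fit g.X θ κ (sc i) (Z i) (k i) (k (i + 1))) :
    ∃ I Ψ, TowerSpec g θ κ (tower θ κ σ bot n) (k n) (Shape ps (fun i => (sc i).lim) n) I Ψ := by
  induction n with
  | zero =>
    refine ⟨_, _, ((base_spec (S := S) (P := P) hb hB).map (fun s v => ∃ l, s = v :: l)
      (Ψ := fun s => List.casesOn s 0 fun v _ => ((k 0).wt + (k 0).cc) * v.om) ?_ ?_).shape ?_⟩
    · rintro _ v ⟨l, rfl⟩; rfl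
    · rintro c _ v Q ⟨l, rfl⟩ h
      exact h.bind fun r t a => ⟨r.1, ⟨l, rfl⟩, a⟩
    · rintro (_ | ⟨v, l⟩)
      · simp [Shape]
      · simp [Shape]
  | succ n ih =>
    obtain ⟨I', Ψ', L⟩ := ih (fun i hi => hs i (by omega)) fun i hi => hf i (by omega)
    obtain ⟨I, Φ, rc, St⟩ := hs n (by omega)
    refine ⟨_, _, ((lvl_spec St L (hf n (by omega))).map (fun s x => s = x.1 :: x.2)
      (Ψ := fun s => List.casesOn s 0 fun v l => LΨ θ (Z n) (k n) (k (n + 1)) Φ rc Ψ' (v, l))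
      ?_ ?_).shape ?_⟩
    · rintro _ x rfl; rfl
    · rintro c _ x Q rfl h
      exact h.bind fun r t a => ⟨r.1, rfl, a⟩
    · rintro (_ | ⟨v, l⟩)
      · simp [Shape]
      · exact ⟨fun ⟨x, e, h⟩ => by obtain ⟨rfl, rfl⟩ := List.cons.inj e; exact h,
          fun h => ⟨(v, l), rfl, h⟩⟩

/-- an unused level -/
def blank (s : S) (p : P) (lim : ℕ) : Lv S P :=
  ⟨p, lim, s, Arr.cst ⟨0, 0, 0, 0⟩, Arr.cst 0, [], Arr.cst 0, Arr.cst [], 0⟩

/-- a list of unused levels has the shape of a tower (start it with `reset`) -/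
theorem shape_blank (s : S) (p0 : P) (ps : ℕ → P) (lim : ℕ → ℕ) (n : ℕ) :
    Shape ps lim n (((List.range n).map fun i => blank s (ps i) (lim i)).reverse ++
      [blank s p0 0]) := by
  induction n with
  | zero => trivial
  | succ n ih =>
    rw [List.range_succ, List.map_append, List.reverse_append]
    exact ⟨rfl, rfl, ih⟩

end Crest.Agent.N325.Tw
private theorem rz_b7eb658f83 : type_of% @_root_.Crest.Agent.N325.Tw.Shape.eq_def := @_root_.Crest.Agent.N325.Tw.Shape.eq_def -- L40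
private theorem rz_ad9fab348a : type_of% @_root_.Crest.Agent.N325.Tw.Shape.eq_1 := @_root_.Crest.Agent.N325.Tw.Shape.eq_1 -- L40
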