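import Crest.Agent.N325.M0.Mon

/-!
# Row 325 (helper64): the tower of the min-ratio cycle oracle — definitions

A *stage* keeps, for the graph `G` it serves, a smaller graph `H` whose edges are walks of `G`.
The tower stacks stages, keeps the pending flows and rebuilds the stages.
-/

set_option autoImplicit false
open Finset

namespace Crest.Agent.N325.Tw

/-- an edge: tail, head, length, gradient -/
structure Ed where
  a : ℕ
  b : ℕ
  l : ℕ
  g : ℤ

/-- signed lists of edges (`true` = forward) -/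
abbrev Wk := List (ℕ × Bool)
/-- reports: edge, amount of flow handed over -/
abbrev Rep := List (ℕ × ℤ)
/-- update: `(e, none)` deletes, `(e, some d)` inserts -/
abbrev Op := ℕ × Option Ed
/-- update of the next graph, an insertion comes with its walk -/
abbrev Ow := ℕ × Option (Ed × Wk)

/-- ghost graphs: ids ever used, current edges, data -/
structure Gr where
  U : Finset ℕ
  E : Finset ℕ
  ed : ℕ → Ed

namespace Gr
/-- the empty graph -/
def emp : Gr := ⟨∅, ∅, fun _ => ⟨0, 0, 0, 0⟩⟩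
/-- apply an update -/
def app (G : Gr) (o : Op) : Gr :=
  match o.2 with
  | none => ⟨G.U, G.E.erase o.1, G.ed⟩
  | some d => ⟨insert o.1 G.U, insert o.1 G.E, Function.update G.ed o.1 d⟩
/-- validity of an update -/
def ok (G : Gr) (o : Op) : Prop :=
  match o.2 with
  | none => o.1 ∈ G.E
  | some _ => o.1 ∉ G.E
end Gr

/-- sign -/
def sg (b : Bool) : ℤ := if b then 1 else -1
/-- signed sum along a walk -/
def wsum (f : ℕ → ℤ) (w : Wk) : ℤ := (w.map fun x => sg x.2 * f x.1).sum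
/-- signed multiplicity -/
def scnt (w : Wk) (e : ℕ) : ℤ := wsum (fun e' => if e' = e then 1 else 0) w
/-- multiplicity -/
def mult (w : Wk) (e : ℕ) : ℕ := (w.map Prod.fst).count e
/-- length of a walk -/
def wl (ed : ℕ → Ed) (w : Wk) : ℕ := (w.map fun x => (ed x.1).l).sum
/-- gradient of a walk -/
def wg (ed : ℕ → Ed) (w : Wk) : ℤ := wsum (fun e => (ed e).g) w
/-- potential difference along an edge -/
def dz (ed : ℕ → Ed) (z : ℕ → ℤ) (e : ℕ) : ℤ := z (ed e).b - z (ed e).a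
/-- `w` leads from `u` to `v` (all that is used of a walk) -/
def Tel (ed : ℕ → Ed) (w : Wk) (u v : ℕ) : Prop := ∀ z : ℕ → ℤ, wsum (dz ed z) w = z v - z u
/-- total amount reported for `e` -/
def rsum (r : Rep) (e : ℕ) : ℤ := (r.map fun x => if x.1 = e then x.2 else 0).sum
/-- weighted size of the reports -/
def rw (ed : ℕ → Ed) (r : Rep) : ℕ := (r.map fun x => x.2.natAbs * (ed x.1).l).sum

/-- the dual certificate: no circulation has ratio above `θ` -/
def Flat (G : Gr) (θ : ℕ) : Prop :=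
  ∃ z : ℕ → ℝ, ∀ e ∈ G.E, |((G.ed e).g : ℝ) - (z (G.ed e).b - z (G.ed e).a)| ≤ θ * (G.ed e).l
/-- circulations -/
def Circ (G : Gr) (c : ℕ → ℤ) : Prop := ∀ z : ℕ → ℤ, ∑ e ∈ G.E, c e * dz G.ed z e = 0
/-- a closed walk with at most `K` edges and ratio above `ψ` -/
def Cyc (ψ K : ℕ) (G : Gr) (w : Wk) : Prop :=
  (∀ x ∈ w, x.1 ∈ G.E) ∧ w.length ≤ K ∧ Tel G.ed w 0 0 ∧ ψ * wl G.ed w < (wg G.ed w).natAbs

/-- bounds on a graph: number of ids, names, lengths, gradients -/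
structure Bd where
  m : ℕ
  nb : ℕ
  lb : ℕ
  gb : ℕ

/-- the edge respects the bounds -/
def Bd.ed (c : Bd) (e : ℕ) (d : Ed) : Prop :=
  e ≤ c.nb ∧ d.a ≤ c.nb ∧ d.b ≤ c.nb ∧ 1 ≤ d.l ∧ d.l ≤ c.lb ∧ d.g.natAbs ≤ c.gb
/-- the graph respects the bounds -/
def Gr.Ok (G : Gr) (c : Bd) : Prop := G.E ⊆ G.U ∧ G.U.card ≤ c.m ∧ ∀ e ∈ G.E, c.ed e (G.ed e)

/-- a short walk in `G`, not longer than `l` -/
def WOk (K : ℕ) (G : Gr) (l : ℕ) (w : Wk) : Prop :=
  (∀ x ∈ w, x.1 ∈ G.E) ∧ w.length ≤ K ∧ wl G.ed w ≤ l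

/-- forget the walk -/
def Ow.op (o : Ow) : Op := (o.1, o.2.map Prod.fst)
/-- record the walk -/
def Ow.wk (o : Ow) (wk : ℕ → Wk) : ℕ → Wk :=
  match o.2 with
  | none => wk
  | some x => Function.update wk o.1 x.2
/-- the next graph after a list of updates -/
def apps (H : Gr) (l : List Ow) : Gr := l.foldl (fun H o => H.app o.op) H
/-- the walks after a list of updates -/
def wks (wk : ℕ → Wk) (l : List Ow) : ℕ → Wk := l.foldl (fun wk o => o.wk wk) wk
/-- the updates are valid one after the other; new edges obey `c'`, new walks lie in `G` -/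
def Oks (K : ℕ) (c' : Bd) (G : Gr) : Gr → List Ow → Prop
  | _, [] => True
  | H, o :: l => H.ok o.op ∧ (∀ x ∈ o.2, c'.ed o.1 x.1 ∧ WOk K G x.1.l x.2) ∧
      Oks K c' G (H.app o.op) l

/-- the edges of `H` are walks of `G` -/
structure Rel (K ρ : ℕ) (G H : Gr) (wk : ℕ → Wk) : Prop where
  tel : ∃ π : ℕ → ℕ, ∀ p ∈ H.E, Tel G.ed (wk p) (π (H.ed p).a) (π (H.ed p).b)
  wok : ∀ p ∈ H.E, WOk K G (H.ed p).l (wk p)
  grad : ∀ p ∈ H.E, (H.ed p).g = wg G.ed (wk p)
  use : ∀ e ∈ G.E, ∑ p ∈ H.E, mult (wk p) e ≤ ρ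

/-- the list enumerates the current edges -/
def Enum (G : Gr) (l : List (ℕ × Ed)) : Prop :=
  (l.map Prod.fst).Nodup ∧ (∀ e, e ∈ G.E ↔ e ∈ l.map Prod.fst) ∧ ∀ x ∈ l, G.ed x.1 = x.2

/-- the programs of a stage (`P` = its parameters) -/
structure Stage (S P : Type) where
  build : P → List (ℕ × Ed) → R (S × List Ow)
  upd : S → Op → R (S × List Ow)
  probe : S → R (S × List Ow × Option Wk)

/-- the constants of a stage: bounds above and below, flatness above and below, ratio of the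
candidates, length of the walks, users per edge, life, recourse (build, update), time (same) -/
structure SC where
  c : Bd
  c' : Bd
  th : ℕ
  th' : ℕ
  ψ : ℕ
  K : ℕ
  ρ : ℕ
  lim : ℕ
  RB : ℕ
  RU : ℕ
  TB : ℕ
  TU : ℕ

/-- **specification of a stage**: `I s G H wk n` after `n` updates; `Φ` pays the time and `rc`
the recourse.  `probe` is only called when the next graph is flat. -/
structure StageSpec {S P : Type} (g : Gl) (σ : Stage S P) (p : P) (k : SC)
    (I : S → Gr → Gr → (ℕ → Wk) → ℕ → Prop) (Φ rc : S → ℕ) : Prop where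
  rel : ∀ {s G H wk n}, I s G H wk n → Rel k.K k.ρ G H wk
  build : ∀ (G : Gr) (l : List (ℕ × Ed)) (wk : ℕ → Wk), G.Ok k.c → Enum G l →
    Sp g (σ.build p l) fun r t => Oks k.K k.c' G Gr.emp r.2 ∧
      I r.1 G (apps Gr.emp r.2) (wks wk r.2) 0 ∧ r.2.length + rc r.1 ≤ k.RB ∧ t + Φ r.1 ≤ k.TB
  upd : ∀ {s G H wk n} (o : Op), I s G H wk n → n < k.lim → G.ok o → G.Ok k.c → (G.app o).Ok k.c →
    Sp g (σ.upd s o) fun r t => Oks k.K k.c' (G.app o) H r.2 ∧
      I r.1 (G.app o) (apps H r.2) (wks wk r.2) (n + 1) ∧ r.2.length + rc r.1 ≤ rc s + k.RU ∧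
      t + Φ r.1 ≤ Φ s + k.TU
  probe : ∀ {s G H wk n}, I s G H wk n → n < k.lim → G.Ok k.c → Flat H k.th' →
    Sp g (σ.probe s) fun r t => t + Φ r.1 ≤ Φ s + k.TU ∧
      ((r.2.1 = [] ∧ I r.1 G H wk n ∧ rc r.1 ≤ rc s ∧
          (∀ w ∈ r.2.2, Cyc k.ψ k.K G w) ∧ (r.2.2 = none → Flat G k.th)) ∨
        (r.2.1 ≠ [] ∧ r.2.2 = none ∧ Oks k.K k.c' G H r.2.1 ∧
          I r.1 G (apps H r.2.1) (wks wk r.2.1) (n + 1) ∧ r.2.1.length + rc r.1 ≤ rc s + k.RU ∧
          ¬Flat (apps H r.2.1) k.th'))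

/-- **specification of the bottom search** (Bellman–Ford on a small graph) -/
def BotSpec (g : Gl) (bot : List (ℕ × Ed) → R (Option Wk)) (c : Bd) (ψ K T : ℕ) : Prop :=
  ∀ (G : Gr) (l : List (ℕ × Ed)), G.Ok c → Enum G l →
    Sp g (bot l) fun r t => t ≤ T ∧ (∀ w ∈ r, Cyc ψ K G w) ∧ (r = none → Flat G ψ)

/-- commands of the tower: `0` update, `1` step, `2` dump, `3` reset -/
abbrev Cmd := ℕ × Op

/-- the constants of a tower: bounds, flatness, ratio, staleness, size of a report, price of the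
weight and of the number of the reports, amortised times (update, step, dump, reset) -/
structure TC where
  c : Bd
  th : ℕ
  ψ : ℕ
  er : ℕ
  rp : ℕ
  wt : ℕ
  cc : ℕ
  AU : ℕ
  AS : ℕ
  AD : ℕ
  AR : ℕ

/-- the reports concern edges of `E` and are small -/
def RepOk (E : Finset ℕ) (D : ℕ) (r : Rep) : Prop := ∀ x ∈ r, x.1 ∈ E ∧ x.2.natAbs ≤ D

/-- a step of weighted size at most `κ` that gains `ψ κ / 2` -/
def Good (ψ κ : ℕ) (G : Gr) (c : ℕ → ℤ) : Prop :=
  Circ G c ∧ ∑ e ∈ G.E, (c e).natAbs * (G.ed e).l ≤ κ ∧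
    2 * ∑ e ∈ G.E, c e * (G.ed e).g + ψ * κ ≤ 0

/-- **specification of a tower**: `I s G f`, `f e` = flow applied to `e` and not yet reported;
`θ` = threshold of the reports (all times are multiplied by it), `κ` = size of a step -/
structure TowerSpec {T : Type} (g : Gl) (θ κ : ℕ) (run : Cmd × T → R (T × Rep × Bool)) (k : TC)
    (Sh : T → Prop) (I : T → Gr → (ℕ → ℤ) → Prop) (Ψ : T → ℕ) : Prop where
  sh : ∀ {s G f}, I s G f → Sh s
  stale : ∀ {s G f}, I s G f → ∀ e ∈ G.E, (f e).natAbs * (G.ed e).l ≤ k.er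
  upd : ∀ {s G f} (o : Op), I s G f → G.ok o → G.Ok k.c → (G.app o).Ok k.c →
    Sp g (run ((0, o), s)) fun r t => ∃ f', I r.1 (G.app o) f' ∧
      RepOk (insert o.1 G.E) k.rp r.2.1 ∧
      (∀ e ∈ insert o.1 G.E, (if e ∈ (G.app o).E then f' e else 0) + rsum r.2.1 e =
        if e ∈ G.E then f e else 0) ∧
      θ * t + Ψ r.1 + θ * k.cc * r.2.1.length + k.wt * rw (G.app o).ed r.2.1 ≤
        Ψ s + θ * k.AU
  step : ∀ {s G f} (o : Op), I s G f → G.Ok k.c →
    Sp g (run ((1, o), s)) fun r t => ∃ f' c, I r.1 G f' ∧ RepOk G.E k.rp r.2.1 ∧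
      (∀ e ∈ G.E, f' e + rsum r.2.1 e = f e + c e) ∧
      (if r.2.2 then Good k.ψ κ G c else Flat G k.th ∧ ∀ e, c e = 0) ∧
      θ * t + Ψ r.1 + θ * k.cc * r.2.1.length + k.wt * rw G.ed r.2.1 ≤ Ψ s + θ * k.AS
  dump : ∀ {s G f} (o : Op), I s G f → G.Ok k.c →
    Sp g (run ((2, o), s)) fun r t => RepOk G.E k.rp r.2.1 ∧ (∀ e ∈ G.E, rsum r.2.1 e = f e) ∧
      θ * t + θ * k.cc * r.2.1.length + k.wt * rw G.ed r.2.1 ≤ Ψ s + θ * k.AD
  reset : ∀ {s} (o : Op), Sh s →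
    Sp g (run ((3, o), s)) fun r t => I r.1 Gr.emp (fun _ => 0) ∧ r.2.1 = [] ∧
      θ * t + Ψ r.1 ≤ θ * k.AR

end Crest.Agent.N325.Tw
private theorem rz_15f09b358e : type_of% @_root_.Crest.Agent.N325.Tw.Oks.eq_def := @_root_.Crest.Agent.N325.Tw.Oks.eq_def -- L111
private theorem rz_0bc5d3db86 : type_of% @_root_.Crest.Agent.N325.Tw.Oks.eq_1 := @_root_.Crest.Agent.N325.Tw.Oks.eq_1 -- L111
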