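import Crest.Agent.N325.Tw.Defs
import Crest.Agent.N325.Tw.Prog

-- ▼ part N325/Tw/Alg
section

/-! # Row 325 (helper64): algebra of walks, reports and push-forwards -/

set_option autoImplicit false
open Finset

namespace Crest.Agent.N325.Tw

@[simp] theorem wsum_nil (f : ℕ → ℤ) : wsum f [] = 0 := rfl
@[simp] theorem wsum_cons (f : ℕ → ℤ) (x : ℕ × Bool) (w : Wk) :
    wsum f (x :: w) = sg x.2 * f x.1 + wsum f w := by simp [wsum]
theorem wsum_append (f : ℕ → ℤ) (w w' : Wk) : wsum f (w ++ w') = wsum f w + wsum f w' := by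
  simp [wsum]
@[simp] theorem scnt_nil (e : ℕ) : scnt [] e = 0 := rfl
theorem scnt_cons (x : ℕ × Bool) (w : Wk) (e : ℕ) :
    scnt (x :: w) e = (if x.1 = e then sg x.2 else 0) + scnt w e := by
  simp only [scnt, wsum_cons]; split_ifs <;> simp
@[simp] theorem mult_nil (e : ℕ) : mult [] e = 0 := rfl
theorem mult_cons (x : ℕ × Bool) (w : Wk) (e : ℕ) :
    mult (x :: w) e = (if x.1 = e then 1 else 0) + mult w e := by
  simp only [mult, List.map_cons, List.count_cons, beq_iff_eq]; omega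
@[simp] theorem wl_nil (ed : ℕ → Ed) : wl ed [] = 0 := rfl
@[simp] theorem wl_cons (ed : ℕ → Ed) (x : ℕ × Bool) (w : Wk) :
    wl ed (x :: w) = (ed x.1).l + wl ed w := by simp [wl]
@[simp] theorem rsum_nil (e : ℕ) : rsum [] e = 0 := rfl
theorem rsum_cons (x : ℕ × ℤ) (r : Rep) (e : ℕ) :
    rsum (x :: r) e = (if x.1 = e then x.2 else 0) + rsum r e := by simp [rsum]
@[simp] theorem rw_nil (ed : ℕ → Ed) : rw ed [] = 0 := rfl
@[simp] theorem rw_cons (ed : ℕ → Ed) (x : ℕ × ℤ) (r : Rep) :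
    rw ed (x :: r) = x.2.natAbs * (ed x.1).l + rw ed r := by simp [rw]

@[simp] theorem natAbs_sg (b : Bool) : (sg b).natAbs = 1 := by cases b <;> rfl
theorem ite_sg (b : Bool) (δ : ℤ) : (if b then δ else -δ) = sg b * δ := by
  cases b <;> simp [sg]

theorem natAbs_scnt_le (w : Wk) (e : ℕ) : (scnt w e).natAbs ≤ mult w e := by
  induction w with
  | nil => simp
  | cons x w ih =>
    rw [scnt_cons, mult_cons]
    refine (Int.natAbs_add_le _ _).trans (Nat.add_le_add ?_ ih)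
    split_ifs <;> simp

theorem mult_eq_zero {w : Wk} {e : ℕ} (h : ∀ x ∈ w, x.1 ≠ e) : mult w e = 0 := by
  induction w with
  | nil => rfl
  | cons x w ih =>
    rw [mult_cons, if_neg (h x (by simp)), ih fun y hy => h y (by simp [hy])]

theorem scnt_eq_zero {w : Wk} {e : ℕ} (h : ∀ x ∈ w, x.1 ≠ e) : scnt w e = 0 := by
  have := natAbs_scnt_le w e
  rw [mult_eq_zero h] at this
  exact Int.natAbs_eq_zero.1 (Nat.le_zero.1 this)

theorem sum_scnt {E : Finset ℕ} {w : Wk} (h : ∀ x ∈ w, x.1 ∈ E) (F : ℕ → ℤ) :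
    ∑ e ∈ E, scnt w e * F e = wsum F w := by
  induction w with
  | nil => simp
  | cons x w ih =>
    simp only [scnt_cons, add_mul, sum_add_distrib, wsum_cons, ih fun y hy => h y (by simp [hy])]
    congr 1
    simp only [ite_mul, zero_mul]
    rw [sum_ite_eq, if_pos (h x (by simp))]

theorem sum_mult {E : Finset ℕ} {w : Wk} (h : ∀ x ∈ w, x.1 ∈ E) (ed : ℕ → Ed) :
    ∑ e ∈ E, mult w e * (ed e).l = wl ed w := by
  induction w with
  | nil => simp
  | cons x w ih =>
    simp only [mult_cons, add_mul, sum_add_distrib, wl_cons, ih fun y hy => h y (by simp [hy])]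
    congr 1
    simp only [ite_mul, zero_mul, one_mul]
    rw [sum_ite_eq, if_pos (h x (by simp))]

theorem mult_mul_le (w : Wk) (ed : ℕ → Ed) (e : ℕ) : mult w e * (ed e).l ≤ wl ed w := by
  induction w with
  | nil => simp
  | cons x w ih =>
    rw [mult_cons, wl_cons, add_mul]
    refine Nat.add_le_add ?_ ih
    split_ifs with h
    · rw [h, one_mul]
    · simp

theorem wsum_congr {f f' : ℕ → ℤ} {w : Wk} (h : ∀ x ∈ w, f x.1 = f' x.1) : wsum f w = wsum f' w := by
  induction w with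
  | nil => rfl
  | cons x w ih => rw [wsum_cons, wsum_cons, h x (by simp), ih fun y hy => h y (by simp [hy])]

theorem wl_congr {ed ed' : ℕ → Ed} {w : Wk} (h : ∀ x ∈ w, ed x.1 = ed' x.1) : wl ed w = wl ed' w := by
  induction w with
  | nil => rfl
  | cons x w ih => rw [wl_cons, wl_cons, h x (by simp), ih fun y hy => h y (by simp [hy])]

theorem wl_le {ed : ℕ → Ed} {w : Wk} {b : ℕ} (h : ∀ x ∈ w, (ed x.1).l ≤ b) :
    wl ed w ≤ w.length * b := by
  induction w with
  | nil => simp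
  | cons x w ih =>
    have := ih fun y hy => h y (by simp [hy])
    have := h x (by simp)
    rw [wl_cons, List.length_cons, add_mul]; omega

theorem WOk.mono {K l : ℕ} {G G' : Gr} {w : Wk} (h : WOk K G l w) (hE : G.E ⊆ G'.E)
    (he : ∀ e ∈ G.E, G'.ed e = G.ed e) : WOk K G' l w :=
  ⟨fun x hx => hE (h.1 x hx), h.2.1, (wl_congr fun x hx => he _ (h.1 x hx)).trans_le h.2.2⟩

theorem rsum_eq_zero {r : Rep} {e : ℕ} (h : ∀ x ∈ r, x.1 ≠ e) : rsum r e = 0 := by
  induction r with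
  | nil => rfl
  | cons x r ih =>
    rw [rsum_cons, if_neg (h x (by simp)), ih fun y hy => h y (by simp [hy]), add_zero]

theorem sum_rsum {F : Finset ℕ} {r : Rep} (h : ∀ x ∈ r, x.1 ∈ F) (φ : ℕ → ℤ) :
    ∑ p ∈ F, rsum r p * φ p = (r.map fun x => x.2 * φ x.1).sum := by
  induction r with
  | nil => simp
  | cons x r ih =>
    simp only [rsum_cons, add_mul, sum_add_distrib, List.map_cons, List.sum_cons,
      ih fun y hy => h y (by simp [hy])]
    congr 1
    simp only [ite_mul, zero_mul]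
    rw [sum_ite_eq, if_pos (h x (by simp))]

theorem RepOk.mono {E E' : Finset ℕ} {D D' : ℕ} {r : Rep} (h : RepOk E D r) (hE : E ⊆ E')
    (hD : D ≤ D') : RepOk E' D' r := fun x hx => ⟨hE (h x hx).1, (h x hx).2.trans hD⟩

/-- the push-forward of a flow on the next graph -/
def pf (E : Finset ℕ) (wk : ℕ → Wk) (c : ℕ → ℤ) (e : ℕ) : ℤ := ∑ p ∈ E, c p * scnt (wk p) e

theorem sum_pf {E F : Finset ℕ} {wk : ℕ → Wk} (h : ∀ p ∈ F, ∀ x ∈ wk p, x.1 ∈ E) (c φ : ℕ → ℤ) :
    ∑ e ∈ E, pf F wk c e * φ e = ∑ p ∈ F, c p * wsum φ (wk p) := by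
  simp only [pf, sum_mul]
  rw [sum_comm]
  refine sum_congr rfl fun p hp => ?_
  rw [← sum_scnt (h p hp), mul_sum]
  exact sum_congr rfl fun e _ => by ring

theorem natAbs_pf_le (F : Finset ℕ) (wk : ℕ → Wk) (c : ℕ → ℤ) (e : ℕ) :
    (pf F wk c e).natAbs ≤ ∑ p ∈ F, (c p).natAbs * mult (wk p) e := by
  unfold pf
  refine (Int.natAbs_sum_le _ _).trans (sum_le_sum fun p _ => ?_)
  rw [Int.natAbs_mul]
  exact Nat.mul_le_mul_left _ (natAbs_scnt_le _ _)

theorem Rel.good {K ρ ψ κ : ℕ} {G H : Gr} {wk : ℕ → Wk} (h : Rel K ρ G H wk) {c : ℕ → ℤ}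
    (hc : Good ψ κ H c) : Good ψ κ G (pf H.E wk c) := by
  have hw : ∀ p ∈ H.E, ∀ x ∈ wk p, x.1 ∈ G.E := fun p hp => (h.wok p hp).1
  refine ⟨fun z => ?_, ?_, ?_⟩
  · obtain ⟨π, hπ⟩ := h.tel
    rw [sum_pf hw, ← hc.1 fun v => z (π v)]
    exact sum_congr rfl fun p hp => by rw [hπ p hp z]; rfl
  · refine le_trans ?_ hc.2.1
    calc ∑ e ∈ G.E, (pf H.E wk c e).natAbs * (G.ed e).l
        ≤ ∑ e ∈ G.E, (∑ p ∈ H.E, (c p).natAbs * mult (wk p) e) * (G.ed e).l :=
          sum_le_sum fun e _ => Nat.mul_le_mul_right _ (natAbs_pf_le _ _ _ _)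
      _ = ∑ p ∈ H.E, (c p).natAbs * wl G.ed (wk p) := by
          simp only [sum_mul]
          rw [sum_comm]
          refine sum_congr rfl fun p hp => ?_
          rw [← sum_mult (hw p hp), mul_sum]
          exact sum_congr rfl fun e _ => by ring
      _ ≤ _ := sum_le_sum fun p hp => Nat.mul_le_mul_left _ (h.wok p hp).2.2
  · rw [sum_pf hw]
    refine le_trans (le_of_eq ?_) hc.2.2
    congr 2
    exact sum_congr rfl fun p hp => by rw [h.grad p hp]; rfl

theorem Rel.stale {K ρ er : ℕ} {G H : Gr} {wk : ℕ → Wk} (h : Rel K ρ G H wk) {f : ℕ → ℤ}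
    (hf : ∀ p ∈ H.E, (f p).natAbs * (H.ed p).l ≤ er) {e : ℕ} (he : e ∈ G.E) :
    (pf H.E wk f e).natAbs * (G.ed e).l ≤ ρ * er := by
  calc (pf H.E wk f e).natAbs * (G.ed e).l
      ≤ (∑ p ∈ H.E, (f p).natAbs * mult (wk p) e) * (G.ed e).l :=
        Nat.mul_le_mul_right _ (natAbs_pf_le _ _ _ _)
    _ ≤ ∑ p ∈ H.E, mult (wk p) e * er := by
        rw [sum_mul]
        refine sum_le_sum fun p hp => ?_
        rcases Nat.eq_zero_or_pos (mult (wk p) e) with h0 | h0
        · simp [h0]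
        · have h1 : (G.ed e).l ≤ (H.ed p).l :=
            ((Nat.le_mul_of_pos_left _ h0).trans (mult_mul_le _ _ _)).trans (h.wok p hp).2.2
          calc (f p).natAbs * mult (wk p) e * (G.ed e).l
              = mult (wk p) e * ((f p).natAbs * (G.ed e).l) := by ring
            _ ≤ _ := Nat.mul_le_mul_left _ ((Nat.mul_le_mul_left _ h1).trans (hf p hp))
    _ ≤ ρ * er := by rw [← sum_mul]; exact Nat.mul_le_mul_right _ (h.use e he)

/-- the amount of a step along `w` -/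
def amt (κ : ℕ) (ed : ℕ → Ed) (w : Wk) : ℤ :=
  if 0 < wg ed w then -((κ / wl ed w : ℕ) : ℤ) else ((κ / wl ed w : ℕ) : ℤ)

theorem natAbs_amt (κ : ℕ) (ed : ℕ → Ed) (w : Wk) : (amt κ ed w).natAbs = κ / wl ed w := by
  unfold amt; split_ifs <;> simp only [Int.natAbs_neg, Int.natAbs_natCast]

theorem Cyc.good {ψ K κ : ℕ} {G : Gr} {w : Wk} (h : Cyc ψ K G w) (h1 : ∀ e ∈ G.E, 1 ≤ (G.ed e).l)
    (hκ : wl G.ed w ≤ κ) : Good ψ κ G fun e => amt κ G.ed w * scnt w e := by
  obtain ⟨hw, -, ht, hr⟩ := h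
  have hpos : 0 < wl G.ed w := by
    cases w with
    | nil => simp [wg] at hr
    | cons x w => have := h1 _ (hw x (by simp)); rw [wl_cons]; omega
  have hq : κ / wl G.ed w * wl G.ed w ≤ κ := Nat.div_mul_le_self _ _
  have hq2 : κ ≤ 2 * (κ / wl G.ed w * wl G.ed w) := by
    have h2 := Nat.div_add_mod κ (wl G.ed w)
    have h3 := Nat.mod_lt κ hpos
    have h4 : 1 ≤ κ / wl G.ed w := (Nat.le_div_iff_mul_le hpos).2 (by omega)
    have h5 : wl G.ed w ≤ κ / wl G.ed w * wl G.ed w := Nat.le_mul_of_pos_left _ h4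
    rw [mul_comm] at h2; omega
  refine ⟨fun z => ?_, ?_, ?_⟩
  · simp only [mul_assoc]
    rw [← mul_sum, sum_scnt hw, ht z, sub_self, mul_zero]
  · refine le_trans ?_ hq
    have e0 : κ / wl G.ed w * wl G.ed w = κ / wl G.ed w * ∑ e ∈ G.E, mult w e * (G.ed e).l := by
      rw [sum_mult hw]
    rw [e0, mul_sum]
    refine sum_le_sum fun e _ => ?_
    rw [Int.natAbs_mul, natAbs_amt, mul_assoc]
    exact Nat.mul_le_mul_left _ (Nat.mul_le_mul_right _ (natAbs_scnt_le _ _))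
  · simp only [mul_assoc]
    rw [← mul_sum, sum_scnt hw]
    change 2 * (amt κ G.ed w * wg G.ed w) + ψ * κ ≤ 0
    have e1 : amt κ G.ed w * wg G.ed w = -((κ / wl G.ed w * (wg G.ed w).natAbs : ℕ) : ℤ) := by
      unfold amt
      rw [Nat.cast_mul, Int.natCast_natAbs]
      split_ifs with h0
      · rw [abs_of_pos h0]; ring
      · rw [abs_of_nonpos (not_lt.1 h0)]; ring
    have e2 : ψ * κ ≤ 2 * (κ / wl G.ed w * (wg G.ed w).natAbs) := by
      calc ψ * κ ≤ ψ * (2 * (κ / wl G.ed w * wl G.ed w)) := Nat.mul_le_mul_left _ hq2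
        _ = 2 * (κ / wl G.ed w * (ψ * wl G.ed w)) := by ring
        _ ≤ _ := Nat.mul_le_mul_left _ (Nat.mul_le_mul_left _ hr.le)
    rw [e1]
    have e3 : ((ψ * κ : ℕ) : ℤ) ≤ ((2 * (κ / wl G.ed w * (wg G.ed w).natAbs) : ℕ) : ℤ) :=
      Int.ofNat_le.2 e2
    rw [Nat.cast_mul, Nat.cast_mul 2, Nat.cast_ofNat] at e3
    linarith

end Crest.Agent.N325.Tw
end

-- ▼ part N325/Tw/Push
section

/-! # Row 325 (helper64): handing flow to the edges of a level -/

set_option autoImplicit false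
open Finset

namespace Crest.Agent.N325.Tw

/-- weighted unreported flow -/
def om (U : Finset ℕ) (ed : ℕ → Ed) (own : ℕ → ℤ) : ℕ := ∑ e ∈ U, (own e).natAbs * (ed e).l

/-- invariant of the unreported flow and the reports -/
structure PS (θ rp : ℕ) (G : Gr) (s : So) : Prop where
  small : ∀ e, (s.1.get e).natAbs * (G.ed e).l < θ
  off : ∀ e, e ∉ G.E → s.1.get e = 0
  rep : RepOk G.E rp s.2

/-- their price -/
def pm (θ wt cc : ℕ) (G : Gr) (s : So) : ℕ :=
  (wt + cc) * om G.U G.ed s.1.get + θ * cc * s.2.length + wt * rw G.ed s.2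

/-- the flow received by `e` -/
def val (s : So) (e : ℕ) : ℤ := s.1.get e + rsum s.2 e

theorem om_set {U : Finset ℕ} (ed : ℕ → Ed) (own : Arr ℤ) {e : ℕ} (he : e ∈ U) (v : ℤ) :
    om U ed (own.set e v).get + (own.get e).natAbs * (ed e).l =
      om U ed own.get + v.natAbs * (ed e).l := by
  unfold om
  rw [← add_sum_erase U _ he, ← add_sum_erase U _ he, Arr.get_set_self]
  have : ∑ x ∈ U.erase e, ((own.set e v).get x).natAbs * (ed x).l =
      ∑ x ∈ U.erase e, (own.get x).natAbs * (ed x).l :=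
    sum_congr rfl fun x hx => by rw [Arr.get_set_ne _ (ne_of_mem_erase hx)]
  rw [this]; ring

variable {g : Gl} {θ rp wt cc D : ℕ} {G : Gr} {ed : Arr Ed}

theorem sp_push1 (hed : ed.get = G.ed) (hU : G.E ⊆ G.U) (h1 : ∀ e ∈ G.E, 1 ≤ (G.ed e).l)
    (hD : θ + D ≤ rp) (hX : rp ≤ g.X) {δ : ℤ} (hδ : δ.natAbs ≤ D) {x : ℕ × Bool} (hx : x.1 ∈ G.E)
    {s : So} (h : PS θ rp G s) :
    Sp g (push1 θ ed δ x s) fun s' t => t = 0 ∧ PS θ rp G s' ∧
      (∀ e, val s' e = val s e + δ * if x.1 = e then sg x.2 else 0) ∧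
      pm θ wt cc G s' ≤ pm θ wt cc G s + (wt + cc) * (δ.natAbs * (G.ed x.1).l) := by
  have hθ : 0 < θ := (Nat.zero_le _).trans_lt (h.small 0)
  set v : ℤ := s.1.get x.1 + if x.2 then δ else -δ with hv
  have hv1 : v.natAbs ≤ (s.1.get x.1).natAbs + δ.natAbs := by
    refine (Int.natAbs_add_le _ _).trans (Nat.add_le_add_left (le_of_eq ?_) _)
    split_ifs <;> simp
  have hs := h.small x.1
  have hs1 : (s.1.get x.1).natAbs < θ := (Nat.le_mul_of_pos_right _ (h1 _ hx)).trans_lt hs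
  have hv2 : v.natAbs * (G.ed x.1).l ≤
      (s.1.get x.1).natAbs * (G.ed x.1).l + δ.natAbs * (G.ed x.1).l := by
    rw [← add_mul]; exact Nat.mul_le_mul_right _ hv1
  have hv3 : v = s.1.get x.1 + δ * sg x.2 := by rw [hv, ite_sg, mul_comm]
  simp only [push1, sp_bind, sp_int, sp_pure, hed, ← hv]
  refine ⟨by omega, trivial, ?_⟩
  split_ifs with hc
  · refine ⟨⟨fun e => ?_, fun e he => ?_, fun y hy => ?_⟩, fun e => ?_, ?_⟩
    · rw [Arr.get_set]; split_ifs
      · simpa using hθ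
      · exact h.small e
    · rw [Arr.get_set]; split_ifs
      · rfl
      · exact h.off e he
    · rcases List.mem_cons.1 hy with rfl | hy
      · exact ⟨hx, by change v.natAbs ≤ rp; omega⟩
      · exact h.rep y hy
    · simp only [val, rsum_cons, Arr.get_set]
      by_cases e1 : x.1 = e
      · subst e1; simp only [if_true]; rw [hv3]; ring
      · rw [if_neg (Ne.symm e1), if_neg e1, if_neg e1]; ring
    · have h2 := om_set G.ed s.1 (hU hx) 0
      simp only [Int.natAbs_zero, zero_mul, add_zero] at h2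
      simp only [pm, List.length_cons, rw_cons]
      have h3 : cc * θ ≤ cc * (v.natAbs * (G.ed x.1).l) := Nat.mul_le_mul_left _ hc
      have h4 := Nat.mul_le_mul_left (wt + cc) hv2
      rw [← h2]
      nlinarith
  · refine ⟨⟨fun e => ?_, fun e he => ?_, h.rep⟩, fun e => ?_, ?_⟩
    · rw [Arr.get_set]; split_ifs with e1
      · rw [e1]; omega
      · exact h.small e
    · rw [Arr.get_set_ne _ (fun e1 : e = x.1 => he (by rw [e1]; exact hx))]; exact h.off e he
    · simp only [val, Arr.get_set]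
      by_cases e1 : x.1 = e
      · subst e1; simp only [if_true]; rw [hv3]; ring
      · rw [if_neg (Ne.symm e1), if_neg e1]; ring
    · have h2 := om_set G.ed s.1 (hU hx) v
      simp only [pm]
      have h3 : om G.U G.ed (s.1.set x.1 v).get ≤
          om G.U G.ed s.1.get + δ.natAbs * (G.ed x.1).l := by omega
      have h4 := Nat.mul_le_mul_left (wt + cc) h3
      rw [mul_add] at h4; omega

theorem sp_pushW (hed : ed.get = G.ed) (hU : G.E ⊆ G.U) (h1 : ∀ e ∈ G.E, 1 ≤ (G.ed e).l)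
    (hD : θ + D ≤ rp) (hX : rp ≤ g.X) {δ : ℤ} (hδ : δ.natAbs ≤ D) {w : Wk}
    (hw : ∀ x ∈ w, x.1 ∈ G.E) {s : So} (h : PS θ rp G s) :
    Sp g (foldL (push1 θ ed δ) w s) fun s' t => t ≤ w.length + 1 ∧ PS θ rp G s' ∧
      (∀ e, val s' e = val s e + δ * scnt w e) ∧
      pm θ wt cc G s' ≤ pm θ wt cc G s + (wt + cc) * (δ.natAbs * wl G.ed w) := by
  refine (sp_foldL (fun l s' t => (∀ x ∈ l, x.1 ∈ G.E) ∧ t + l.length ≤ w.length ∧ PS θ rp G s' ∧
      (∀ e, val s' e + δ * scnt l e = val s e + δ * scnt w e) ∧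
      pm θ wt cc G s' + (wt + cc) * (δ.natAbs * wl G.ed l) ≤
        pm θ wt cc G s + (wt + cc) * (δ.natAbs * wl G.ed w)) ?_ (t := 0)
      ⟨hw, by simp, h, fun _ => rfl, le_rfl⟩).mono ?_
  · rintro x l s1 t ⟨a1, a2, a3, a4, a5⟩
    refine (sp_push1 (wt := wt) (cc := cc) hed hU h1 hD hX hδ (a1 x (by simp)) a3).mono ?_
    rintro s2 u ⟨rfl, b1, b2, b3⟩
    refine ⟨fun y hy => a1 y (by simp [hy]), by rw [List.length_cons] at a2; omega, b1,
      fun e => ?_, ?_⟩
    · rw [← a4 e, b2 e, scnt_cons]; ring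
    · rw [wl_cons, mul_add, mul_add] at a5; omega
  · rintro s' t ⟨u, rfl, -, a2, a3, a4, a5⟩
    exact ⟨by simpa using a2, a3, fun e => by simpa using a4 e, by simpa using a5⟩

theorem sp_pushR (hed : ed.get = G.ed) (hU : G.E ⊆ G.U) (h1 : ∀ e ∈ G.E, 1 ≤ (G.ed e).l)
    (hD : θ + D ≤ rp) (hX : rp ≤ g.X) {K : ℕ} {F : Finset ℕ} {ed' : ℕ → Ed} {wk : Arr Wk}
    (hF : ∀ p ∈ F, WOk K G (ed' p).l (wk.get p)) {r : Rep} (hr : RepOk F D r) {s : So}
    (h : PS θ rp G s) :
    Sp g (pushR θ ed wk r s) fun s' t => t ≤ r.length * (K + 2) + 1 ∧ PS θ rp G s' ∧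
      (∀ e, val s' e = val s e + pf F wk.get (rsum r) e) ∧
      pm θ wt cc G s' ≤ pm θ wt cc G s + (wt + cc) * rw ed' r := by
  refine (sp_foldL (fun l s' t => RepOk F D l ∧ t + l.length * (K + 2) ≤ r.length * (K + 2) ∧
      PS θ rp G s' ∧ (∀ e, val s' e + pf F wk.get (rsum l) e = val s e + pf F wk.get (rsum r) e) ∧
      pm θ wt cc G s' + (wt + cc) * rw ed' l ≤ pm θ wt cc G s + (wt + cc) * rw ed' r) ?_ (t := 0)
      ⟨hr, by simp, h, fun _ => rfl, le_rfl⟩).mono ?_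
  · rintro x l s1 t ⟨a1, a2, a3, a4, a5⟩
    have hx := a1 x (by simp)
    have hw := hF _ hx.1
    refine (sp_pushW (wt := wt) (cc := cc) hed hU h1 hD hX hx.2 hw.1 a3).mono ?_
    rintro s2 u ⟨b0, b1, b2, b3⟩
    have hl : RepOk F D l := fun y hy => a1 y (by simp [hy])
    refine ⟨hl, ?_, b1, fun e => ?_, ?_⟩
    · have := hw.2.1; rw [List.length_cons, add_mul] at a2; omega
    · rw [← a4 e, b2 e]
      unfold pf
      rw [sum_rsum (fun y hy => (a1 y hy).1), sum_rsum (fun y hy => (hl y hy).1)]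
      simp only [List.map_cons, List.sum_cons]; ring
    · have h5 : (wt + cc) * (x.2.natAbs * wl G.ed (wk.get x.1)) ≤
          (wt + cc) * (x.2.natAbs * (ed' x.1).l) :=
        Nat.mul_le_mul_left _ (Nat.mul_le_mul_left _ hw.2.2)
      rw [rw_cons, mul_add] at a5; omega
  · rintro s' t ⟨u, rfl, -, a2, a3, a4, a5⟩
    exact ⟨by simpa using a2, a3, fun e => by simpa [pf] using a4 e, by simpa using a5⟩

theorem sp_lenG (hed : ed.get = G.ed) {c : Bd} (hG : G.Ok c) {K : ℕ} (hl : K * c.lb ≤ g.X)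
    (hg : K * c.gb ≤ g.X) {w : Wk} (hw : ∀ x ∈ w, x.1 ∈ G.E) (hK : w.length ≤ K) :
    Sp g (lenG ed w) fun a t => t ≤ K + 1 ∧ a = (wl G.ed w, wg G.ed w) := by
  refine (sp_foldL (fun l a t => (∀ x ∈ l, x.1 ∈ G.E) ∧ t + l.length = w.length ∧
      a.1 ≤ t * c.lb ∧ a.2.natAbs ≤ t * c.gb ∧ a.1 + wl G.ed l = wl G.ed w ∧
      a.2 + wg G.ed l = wg G.ed w) ?_ (t := 0) (s := (0, 0))
      ⟨hw, by simp, by simp, by simp, by simp, by simp⟩).mono ?_
  · rintro x l a t ⟨a1, a2, a3, a4, a5, a6⟩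
    have hx := hG.2.2 _ (a1 x (by simp))
    rw [List.length_cons] at a2
    have e1 : (t + 1) * c.lb ≤ K * c.lb := Nat.mul_le_mul_right _ (by omega)
    have e2 : (t + 1) * c.gb ≤ K * c.gb := Nat.mul_le_mul_right _ (by omega)
    have e3 : (a.2 + if x.2 then (G.ed x.1).g else -(G.ed x.1).g).natAbs ≤ (t + 1) * c.gb := by
      refine (Int.natAbs_add_le _ _).trans ?_
      rw [ite_sg, Int.natAbs_mul, natAbs_sg, one_mul, add_mul, one_mul]
      exact Nat.add_le_add a4 hx.2.2.2.2.2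
    have e4 := hx.2.2.2.2.1
    rw [add_mul, one_mul] at e1
    simp only [sp_bind, sp_nat, sp_int, sp_pure, hed, add_zero]
    refine ⟨by omega, e3.trans (e2.trans hg), fun y hy => a1 y (by simp [hy]), by omega,
      by rw [add_mul, one_mul]; omega, e3, by rw [wl_cons] at a5; omega, ?_⟩
    rw [← a6, ite_sg]; simp only [wg, wsum_cons]; ring
  · rintro a t ⟨u, rfl, -, a2, -, -, a5, a6⟩
    refine ⟨by simp at a2; omega, Prod.ext (by simpa using a5) (by simpa [wg] using a6)⟩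

theorem sp_cyc (hed : ed.get = G.ed) {c : Bd} (hG : G.Ok c) {K ψ κ : ℕ} (hl : K * c.lb ≤ g.X)
    (hg : K * c.gb ≤ g.X) (hD : θ + κ ≤ rp) (hX : rp ≤ g.X) {w : Wk} (hw : Cyc ψ K G w) {s : So}
    (h : PS θ rp G s) :
    Sp g (cyc θ κ ed w s) fun s' t => t ≤ 2 * K + 2 ∧ PS θ rp G s' ∧
      (∀ e, val s' e = val s e + amt κ G.ed w * scnt w e) ∧
      pm θ wt cc G s' ≤ pm θ wt cc G s + (wt + cc) * κ := by
  refine (sp_lenG hed hG hl hg hw.1 hw.2.1).bind ?_
  rintro a t ⟨ht, rfl⟩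
  have hδ : (amt κ G.ed w).natAbs ≤ κ := by rw [natAbs_amt]; exact Nat.div_le_self _ _
  refine (sp_pushW (wt := wt) (cc := cc) hed hG.1 (fun e he => (hG.2.2 e he).2.2.2.1) hD hX hδ
    hw.1 h).mono ?_
  rintro s' u ⟨b0, b1, b2, b3⟩
  refine ⟨by have := hw.2.1; omega, b1, b2, b3.trans (Nat.add_le_add_left ?_ _)⟩
  rw [natAbs_amt]
  exact Nat.mul_le_mul_left _ (Nat.div_mul_le_self _ _)

end Crest.Agent.N325.Tw
end

-- ▼ part N325/Tw/Fit

/-! # Row 325 (helper64): the conditions on the constants of the levels, tables, invariants -/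

set_option autoImplicit false
open Finset

namespace Crest.Agent.N325.Tw

/-- the constants `k` of a level fit the stage `sc` and the constants `k'` of the tower below;
`Z` = saving per update for the next rebuild -/
structure Fit (X θ κ : ℕ) (sc : SC) (Z : ℕ) (k' k : TC) : Prop where
  θ1 : 0 < θ
  c : k.c = sc.c
  c' : k'.c = sc.c'
  th : k.th = sc.th
  th' : k'.th = sc.th'
  ψ : k.ψ = sc.ψ
  ψ' : k'.ψ = sc.ψ
  lim : 0 < sc.lim
  m' : sc.RB + sc.RU * sc.lim ≤ sc.c'.m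
  er : θ + sc.ρ * k'.er ≤ k.er
  rp : θ + k'.rp ≤ k.rp
  rpκ : θ + κ ≤ k.rp
  rpX : k.rp ≤ X
  wt : k.wt + k.cc ≤ k'.wt
  cc : sc.K + 2 ≤ k'.cc
  lκ : sc.K * sc.c.lb ≤ κ
  lX : sc.K * sc.c.lb ≤ X
  gX : sc.K * sc.c.gb ≤ X
  AR : k'.AR + sc.c.m + sc.TB + sc.RB * (k'.AU + 3) + 3 ≤ k.AR
  sav : k'.AD + 2 + k.AR ≤ sc.lim * Z
  AU : sc.TU + sc.RU * (k'.AU + 3) + Z + k.cc + 1 ≤ k.AU
  AS : θ * (2 * k'.AS + sc.TU + sc.RU * (k'.AU + 3) + Z + 2 * sc.K + 7) + (k.wt + k.cc) * κ ≤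
    θ * k.AS
  AD : k'.AD + sc.c.m * (k.cc + 1) + 3 ≤ k.AD

/-- the constants of the bottom level fit the bottom search -/
structure FitB (X θ κ K T : ℕ) (k : TC) : Prop where
  θ1 : 0 < θ
  th : k.th = k.ψ
  er : θ ≤ k.er
  rpκ : θ + κ ≤ k.rp
  rpX : k.rp ≤ X
  lκ : K * k.c.lb ≤ κ
  lX : K * k.c.lb ≤ X
  gX : K * k.c.gb ≤ X
  AU : k.cc ≤ k.AU
  AS : θ * (k.c.m + T + 2 * K + 3) + (k.wt + k.cc) * κ ≤ θ * k.AS
  AD : k.c.m * (k.cc + 1) + 1 ≤ k.AD

variable {S P T : Type}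

/-- the tables of a level describe `G` -/
structure Tab (v : Lv S P) (G : Gr) : Prop where
  ed : v.ed.get = G.ed
  nd : v.ids.Nodup
  ids : v.ids.toFinset = G.U
  al2 : ∀ e, v.al.get e = 2 ↔ e ∈ G.E
  al0 : ∀ e, v.al.get e = 0 ↔ e ∉ G.U

/-- the potential of the unreported flow of a level -/
def Lv.om (v : Lv S P) : ℕ := Tw.om v.ids.toFinset v.ed.get v.own.get

/-- invariant of the bottom level -/
def BI (θ : ℕ) (v : Lv S P) (G : Gr) (f : ℕ → ℤ) : Prop :=
  Tab v G ∧ PS θ 0 G (v.own, []) ∧ ∀ e ∈ G.E, f e = v.own.get e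

/-- invariant of a level -/
def LI (θ : ℕ) (p : P) (sc : SC) (I : S → Gr → Gr → (ℕ → Wk) → ℕ → Prop) (rc : S → ℕ)
    (I' : T → Gr → (ℕ → ℤ) → Prop) (x : Lv S P × T) (G : Gr) (f : ℕ → ℤ) : Prop :=
  ∃ H fl, Tab x.1 G ∧ x.1.p = p ∧ x.1.lim = sc.lim ∧ x.1.cnt < sc.lim ∧
    I x.1.st G H x.1.wk.get x.1.cnt ∧ I' x.2 H fl ∧ H.Ok sc.c' ∧
    H.U.card + rc x.1.st ≤ sc.RB + sc.RU * x.1.cnt ∧ PS θ 0 G (x.1.own, []) ∧
    ∀ e ∈ G.E, f e = x.1.own.get e + pf H.E x.1.wk.get fl e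

/-- potential of a level -/
def LΨ (θ Z : ℕ) (k' k : TC) (Φ rc : S → ℕ) (Ψ' : T → ℕ) (x : Lv S P × T) : ℕ :=
  (k.wt + k.cc) * x.1.om + θ * (Φ x.1.st + rc x.1.st * (k'.AU + 3) + x.1.cnt * Z) + Ψ' x.2

theorem Gr.app_E_sub (G : Gr) (o : Op) : (G.app o).E ⊆ insert o.1 G.E := by
  unfold Gr.app
  cases o.2 with
  | none => exact (erase_subset _ _).trans (subset_insert _ _)
  | some d => exact subset_rfl

theorem Gr.app_ed {G : Gr} {o : Op} (h : G.ok o) {e : ℕ} (he : e ∈ G.E) :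
    (G.app o).ed e = G.ed e := by
  obtain ⟨p, _ | d⟩ := o
  · rfl
  · exact Function.update_of_ne (fun e1 => h (by rw [← e1]; exact he)) _ _

theorem Gr.app_U_card (G : Gr) (o : Op) : (G.app o).U.card ≤ G.U.card + 1 := by
  obtain ⟨p, _ | d⟩ := o
  · exact Nat.le_succ _
  · exact card_insert_le _ _

theorem Gr.ins_sub {G : Gr} {o : Op} (h : G.ok o) (hU : G.E ⊆ G.U) :
    insert o.1 G.E ⊆ (G.app o).U := by
  obtain ⟨p, _ | d⟩ := o
  · exact insert_subset (hU h) hU
  · exact insert_subset_insert _ hU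

theorem Tab.app {v : Lv S P} {G : Gr} (h : Tab v G) {o : Op} (ho : G.ok o) (hU : G.E ⊆ G.U) :
    Tab (tab o v) (G.app o) := by
  obtain ⟨p, _ | d⟩ := o
  · have hp : p ∈ G.E := ho
    refine ⟨h.ed, h.nd, h.ids, fun e => ?_, fun e => ?_⟩
    · change (v.al.set p 1).get e = 2 ↔ e ∈ G.E.erase p
      rw [Arr.get_set, mem_erase]; split_ifs with e1
      · simp [e1]
      · simp [e1, h.al2]
    · change (v.al.set p 1).get e = 0 ↔ e ∉ G.U
      rw [Arr.get_set]; split_ifs with e1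
      · simp [e1, hU hp]
      · exact h.al0 e
  · refine ⟨?_, ?_, ?_, fun e => ?_, fun e => ?_⟩
    · change (v.ed.set p d).get = Function.update G.ed p d
      rw [Arr.set_get, h.ed]
    · change (if v.al.get p = 0 then p :: v.ids else v.ids).Nodup
      split_ifs with e1
      · exact List.nodup_cons.2 ⟨fun e2 => (h.al0 p).1 e1 (h.ids ▸ List.mem_toFinset.2 e2), h.nd⟩
      · exact h.nd
    · change (if v.al.get p = 0 then p :: v.ids else v.ids).toFinset = insert p G.U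
      split_ifs with e1
      · rw [List.toFinset_cons, h.ids]
      · rw [h.ids, insert_eq_of_mem (not_not.1 fun e2 => e1 ((h.al0 p).2 e2))]
    · change (v.al.set p 2).get e = 2 ↔ e ∈ insert p G.E
      rw [Arr.get_set, mem_insert]; split_ifs with e1
      · simp [e1]
      · simp [e1, h.al2]
    · change (v.al.set p 2).get e = 0 ↔ e ∉ insert p G.U
      rw [Arr.get_set, mem_insert]; split_ifs with e1
      · simp [e1]
      · simp [e1, h.al0]

theorem Tab.clear (v : Lv S P) : Tab (clear v) Gr.emp :=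
  ⟨rfl, List.nodup_nil, rfl, fun e => by simp [Tw.clear, Gr.emp], fun e => by simp [Tw.clear, Gr.emp]⟩

theorem Tab.len {v : Lv S P} {G : Gr} (h : Tab v G) : v.ids.length = G.U.card := by
  rw [← h.ids, List.toFinset_card_of_nodup h.nd]

variable {g : Gl}

/-- the filter loops of `enum` and `repAll` -/
theorem sp_filt {β : Type} (al : Arr ℕ) (φ : ℕ → β) (ids : List ℕ) (l0 : List (ℕ × β)) :
    Sp g (foldL (fun e l => pure (if al.get e = 2 then (e, φ e) :: l else l)) ids l0) fun l t =>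
      t ≤ ids.length + 1 ∧
        l = ((ids.filter fun e => al.get e = 2).map fun e => (e, φ e)).reverse ++ l0 := by
  refine (sp_foldL (fun r l t => t + r.length = ids.length ∧
      ((r.filter fun e => al.get e = 2).map fun e => (e, φ e)).reverse ++ l =
      ((ids.filter fun e => al.get e = 2).map fun e => (e, φ e)).reverse ++ l0) ?_ (t := 0)
      ⟨by simp, rfl⟩).mono ?_
  · rintro a r l t ⟨a1, a2⟩
    rw [sp_pure, ← a2]
    refine ⟨by rw [List.length_cons] at a1; omega, ?_⟩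
    by_cases h : al.get a = 2 <;> simp [h]
  · rintro l t ⟨u, rfl, a1, a2⟩
    exact ⟨by simp at a1; omega, by simpa using a2⟩

theorem sp_enum {v : Lv S P} {G : Gr} (h : Tab v G) (hU : G.E ⊆ G.U) :
    Sp g (enum v) fun l t => t ≤ G.U.card + 1 ∧ Enum G l := by
  refine (sp_filt v.al v.ed.get v.ids []).mono ?_
  rintro l t ⟨a1, rfl⟩
  refine ⟨h.len ▸ a1, ?_, fun e => ?_, fun x hx => ?_⟩
  · rw [List.append_nil, List.map_reverse, List.map_map, List.nodup_reverse]
    simpa [Function.comp_def] using h.nd.filter _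
  · simp only [List.append_nil, List.map_reverse, List.map_map, List.mem_reverse, Function.comp_def,
      List.map_id', List.mem_filter, decide_eq_true_eq, h.al2]
    exact ⟨fun he => ⟨List.mem_toFinset.1 (h.ids ▸ hU he), he⟩, fun he => he.2⟩
  · simp only [List.append_nil, List.mem_reverse, List.mem_map] at hx
    obtain ⟨e, -, rfl⟩ := hx
    rw [← h.ed]

theorem rsum_append (r r' : Rep) (e : ℕ) : rsum (r ++ r') e = rsum r e + rsum r' e := by
  simp [rsum]
theorem rw_append (ed : ℕ → Ed) (r r' : Rep) : rw ed (r ++ r') = rw ed r + rw ed r' := by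
  simp [rw]

theorem sp_repAll {θ rp wt cc : ℕ} {v : Lv S P} {G : Gr} (h : Tab v G) (hU : G.E ⊆ G.U)
    (h1 : ∀ e ∈ G.E, 1 ≤ (G.ed e).l) (hθ : θ ≤ rp) {s : So} (hs : PS θ rp G s) :
    Sp g (repAll v s) fun r t => t ≤ G.U.card + 1 ∧ RepOk G.E rp r ∧
      (∀ e ∈ G.E, rsum r e = val s e) ∧
      θ * cc * r.length + wt * rw G.ed r ≤ pm θ wt cc G s + θ * cc * G.U.card := by
  refine (sp_filt v.al s.1.get v.ids s.2).mono ?_
  rintro l t ⟨a1, rfl⟩
  have hF : (v.ids.filter fun e => v.al.get e = 2).toFinset = G.E := by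
    ext e
    simp only [List.toFinset_filter, mem_filter, decide_eq_true_eq, h.al2, h.ids]
    exact ⟨fun he => he.2, fun he => ⟨hU he, he⟩⟩
  have hn : (v.ids.filter fun e => v.al.get e = 2).Nodup := h.nd.filter _
  generalize (v.ids.filter fun e => v.al.get e = 2) = L at hF hn
  refine ⟨h.len ▸ a1, fun x hx => ?_, fun e he => ?_, ?_⟩
  · rcases List.mem_append.1 hx with hx | hx
    · simp only [List.mem_reverse, List.mem_map] at hx
      obtain ⟨e, he, rfl⟩ := hx
      have he' : e ∈ G.E := hF ▸ List.mem_toFinset.2 he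
      exact ⟨he', ((Nat.le_mul_of_pos_right _ (h1 e he')).trans (hs.small e).le).trans hθ⟩
    · exact hs.rep x hx
  · rw [rsum_append, val]
    congr 1
    simp only [rsum, List.map_reverse, List.sum_reverse, List.map_map, Function.comp_def]
    rw [← List.sum_toFinset _ hn, hF, sum_ite_eq', if_pos he]
  · have e1 : rw G.ed (L.map fun e => (e, s.1.get e)).reverse ≤ om G.U G.ed s.1.get := by
      simp only [rw, List.map_reverse, List.sum_reverse, List.map_map, Function.comp_def]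
      rw [← List.sum_toFinset _ hn, hF]
      exact sum_le_sum_of_subset hU
    have e2 : L.length ≤ G.U.card := by
      rw [← List.toFinset_card_of_nodup hn, hF]; exact card_le_card hU
    rw [rw_append, List.length_append, List.length_reverse, List.length_map, pm]
    have e3 := Nat.mul_le_mul_left wt e1
    have e4 := Nat.mul_le_mul_left (θ * cc) e2
    rw [mul_add, mul_add, add_mul]; omega

/-- the graph that contains the edges before and after an update -/
def Gr.both (G : Gr) (o : Op) : Gr := ⟨(G.app o).U, insert o.1 G.E, (G.app o).ed⟩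

/-- the report of a deleted edge -/
theorem fin1_spec {θ rp wt cc : ℕ} {G : Gr} {o : Op} (ho : G.ok o) (hU : G.E ⊆ G.U)
    (h1 : ∀ e ∈ G.E, 1 ≤ (G.ed e).l) (hθ : θ ≤ rp) {s : So} (hs : PS θ rp (G.both o) s) :
    PS θ rp (G.both o) (fin1 o s) ∧ (∀ e, e ∉ (G.app o).E → (fin1 o s).1.get e = 0) ∧
      (∀ e, val (fin1 o s) e = val s e) ∧
      pm θ wt cc (G.both o) (fin1 o s) ≤ pm θ wt cc (G.both o) s + θ * cc := by
  obtain ⟨p, _ | d⟩ := o
  · have hp : p ∈ G.E := ho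
    have h0 : 0 < θ := (Nat.zero_le _).trans_lt (hs.small 0)
    change PS θ rp _ (s.1.set p 0, (p, s.1.get p) :: s.2) ∧
      (∀ e, e ∉ G.E.erase p → (s.1.set p 0).get e = 0) ∧
      (∀ e, val (s.1.set p 0, (p, s.1.get p) :: s.2) e = _) ∧
      pm θ wt cc _ (s.1.set p 0, (p, s.1.get p) :: s.2) ≤ _
    refine ⟨⟨fun e => ?_, fun e he => ?_, fun y hy => ?_⟩, fun e he => ?_, fun e => ?_, ?_⟩
    · rw [Arr.get_set]; split_ifs
      · simpa using h0
      · exact hs.small e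
    · rw [Arr.get_set]; split_ifs
      · rfl
      · exact hs.off e he
    · rcases List.mem_cons.1 hy with rfl | hy
      · exact ⟨mem_insert_self _ _,
          ((Nat.le_mul_of_pos_right _ (h1 p hp)).trans (hs.small p).le).trans hθ⟩
      · exact hs.rep y hy
    · rw [Arr.get_set]; split_ifs with e1
      · rfl
      · refine hs.off e fun e2 => he ?_
        exact mem_erase.2 ⟨e1, (mem_insert.1 e2).resolve_left e1⟩
    · simp only [val, rsum_cons, Arr.get_set]
      by_cases e1 : p = e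
      · subst e1; simp
      · rw [if_neg (Ne.symm e1), if_neg e1]; ring
    · have h2 := om_set G.ed s.1 (hU hp) 0
      simp only [Int.natAbs_zero, zero_mul, add_zero] at h2
      change (wt + cc) * om G.U G.ed (s.1.set p 0).get + θ * cc * (s.2.length + 1) +
        wt * ((s.1.get p).natAbs * (G.ed p).l + rw G.ed s.2) ≤
        (wt + cc) * om G.U G.ed s.1.get + θ * cc * s.2.length + wt * rw G.ed s.2 + θ * cc
      rw [← h2]
      nlinarith [Nat.zero_le (cc * ((s.1.get p).natAbs * (G.ed p).l))]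
  · exact ⟨hs, fun e he => hs.off e he, fun _ => rfl, Nat.le_add_right _ _⟩

/-- the state before an update, seen in the larger graph -/
theorem PS.both {θ rp : ℕ} {G : Gr} {o : Op} (ho : G.ok o) {own : Arr ℤ} (h : PS θ 0 G (own, [])) :
    PS θ rp (G.both o) (own, []) ∧ om (G.both o).U (G.both o).ed own.get = om G.U G.ed own.get := by
  obtain ⟨p, _ | d⟩ := o
  · exact ⟨⟨h.small, fun e he => h.off e fun e1 => he (mem_insert_of_mem e1), fun _ hx => nomatch hx⟩,
      rfl⟩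
  · have hp : own.get p = 0 := h.off p ho
    have h0 : 0 < θ := (Nat.zero_le _).trans_lt (h.small 0)
    have key : ∀ e, (own.get e).natAbs * (Function.update G.ed p d e).l =
        (own.get e).natAbs * (G.ed e).l := fun e => by
      by_cases e1 : e = p
      · simp [e1, hp]
      · rw [Function.update_of_ne e1]
    refine ⟨⟨fun e => (key e).trans_lt (h.small e),
      fun e he => h.off e fun e1 => he (mem_insert_of_mem e1), fun _ hx => nomatch hx⟩, ?_⟩
    change ∑ e ∈ insert p G.U, (own.get e).natAbs * (Function.update G.ed p d e).l = _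
    simp only [key]
    by_cases e1 : p ∈ G.U
    · rw [insert_eq_of_mem e1]; rfl
    · rw [sum_insert e1, hp]; simp [om]

end Crest.Agent.N325.Tw
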